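import Mathlib

/-!
# Products of sign changes along a chain of vertices, modulo two
-/

namespace Vale.Agent.P371.Full.Topo

variable {V : Type*}

/-- The product over the steps of the change of the label of that step. -/
def cupProd : List (V → ZMod 2) → (ℕ → V) → ZMod 2
  | [], _ => 1
  | a :: l, v => (a (v 0) + a (v 1)) * cupProd l fun m => v (m + 1)

/-- The same with a value read at the vertex between the two lists. -/
def cupVal : List (V → ZMod 2) → (V → ZMod 2) → List (V → ZMod 2) → (ℕ → V) → ZMod 2
  | [], t, l, v => t (v 0) * cupProd l v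
  | a :: pre, t, l, v => (a (v 0) + a (v 1)) * cupVal pre t l fun m => v (m + 1)

/-- The chain without vertex `k`. -/
def cut (k : ℕ) (v : ℕ → V) : ℕ → V := fun m => if m < k then v m else v (m + 1)

lemma cut_zero (v : ℕ → V) : cut 0 v = fun m => v (m + 1) := funext fun m => by simp [cut]

lemma cut_succ_shift (k : ℕ) (v : ℕ → V) :
    (fun m => cut (k + 1) v (m + 1)) = cut k fun m => v (m + 1) :=
  funext fun m => by by_cases h : m < k <;> simp [cut, h]

lemma cut_values (k : ℕ) (v : ℕ → V) :
    cut (k + 1) v 0 = v 0 ∧ cut (k + 1 + 1) v 1 = v 1 ∧ cut 1 v 1 = v 2 := by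
  simp [cut]

lemma sum_cupProd_cut (l : List (V → ZMod 2)) (v : ℕ → V) :
    ∑ k ∈ Finset.range (l.length + 2), cupProd l (cut k v) = 0 := by
  induction l generalizing v with
  | nil => simp [cupProd]; decide
  | cons a l ih =>
    rw [List.length_cons, Finset.sum_range_succ', Finset.sum_range_succ']
    simp only [cupProd, cut_succ_shift]
    rw [show (fun m => cut 0 v (m + 1)) = fun m => v (m + 2) by funext m; simp [cut]]
    have h := ih fun m => v (m + 1)
    rw [Finset.sum_range_succ'] at h
    simp only [cut_zero] at h
    simp only [(cut_values _ v).1, (cut_values _ v).2.1, (cut_values 0 v).2.2, zero_add, cut_zero,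
      Nat.reduceAdd, ← Finset.mul_sum] at *
    generalize a (v 0) = p, a (v 1) = q, a (v 2) = r at *
    generalize cupProd l (fun m => v (m + 2)) = P at *
    have key : ∀ p q r P S : ZMod 2, S + P = 0 → (p + q) * S + (p + r) * P + (q + r) * P = 0 := by
      decide
    exact key p q r P _ h

lemma sum_cupVal_cut (pre : List (V → ZMod 2)) (t : V → ZMod 2) (l : List (V → ZMod 2))
    (v : ℕ → V) :
    ∑ k ∈ Finset.range (pre.length + l.length + 2), cupVal pre t l (cut k v) =
      cupProd (pre ++ t :: l) v := by
  induction pre generalizing v with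
  | nil =>
    have h := sum_cupProd_cut l v
    rw [Finset.sum_range_succ'] at h
    rw [List.length_nil, zero_add, Finset.sum_range_succ']
    simp only [cupVal, List.nil_append, cupProd]
    have h0 : ∀ k, cut (k + 1) v 0 = v 0 := fun k => by simp [cut]
    simp only [h0, ← Finset.mul_sum, cut_zero] at h ⊢
    generalize t (v 0) = p, t (v 1) = q at *
    generalize cupProd l (fun m => v (m + 1)) = P at *
    have key : ∀ p q P S : ZMod 2, S + P = 0 → p * S + q * P = (p + q) * P := by decide
    exact key p q P _ h
  | cons a pre ih =>
    rw [show (a :: pre).length + l.length + 2 = pre.length + l.length + 1 + 1 + 1 by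
      simp only [List.length_cons]; omega, Finset.sum_range_succ', Finset.sum_range_succ']
    simp only [cupVal, List.cons_append, cupProd, cut_succ_shift]
    rw [show (fun m => cut 0 v (m + 1)) = fun m => v (m + 2) by funext m; simp [cut]]
    have h := ih fun m => v (m + 1)
    rw [show pre.length + l.length + 2 = pre.length + l.length + 1 + 1 by omega,
      Finset.sum_range_succ'] at h
    simp only [cut_zero] at h ⊢
    simp only [(cut_values _ v).1, (cut_values _ v).2.1, (cut_values 0 v).2.2, zero_add,
      Nat.reduceAdd, ← Finset.mul_sum] at h ⊢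
    rw [← h]
    generalize a (v 0) = p, a (v 1) = q, a (v 2) = r
    generalize cupVal pre t l (fun m => v (m + 2)) = P
    have key : ∀ p q r P S : ZMod 2,
        (p + q) * S + (p + r) * P + (q + r) * P = (p + q) * (S + P) := by decide
    exact key p q r P _

lemma cupProd_congr {l : List (V → ZMod 2)} {v w : ℕ → V} (h : ∀ m ≤ l.length, v m = w m) :
    cupProd l v = cupProd l w := by
  induction l generalizing v w with
  | nil => rfl
  | cons a l ih =>
    rw [cupProd, cupProd, h 0 (Nat.zero_le _), h 1 (by simp),
      ih fun m hm => h (m + 1) (by simp; omega)]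

lemma cupVal_congr {pre : List (V → ZMod 2)} {t : V → ZMod 2} {l : List (V → ZMod 2)}
    {v w : ℕ → V} (h : ∀ m ≤ pre.length + l.length, v m = w m) :
    cupVal pre t l v = cupVal pre t l w := by
  induction pre generalizing v w with
  | nil => rw [cupVal, cupVal, h 0 (Nat.zero_le _), cupProd_congr fun m hm => h m (by simpa using hm)]
  | cons a pre ih =>
    rw [cupVal, cupVal, h 0 (Nat.zero_le _), h 1 (by simp; omega),
      ih fun m hm => h (m + 1) (by simp; omega)]

lemma cupProd_linear (pre : List (V → ZMod 2)) (a b : V → ZMod 2) (l : List (V → ZMod 2))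
    (v : ℕ → V) :
    cupProd (pre ++ (fun x => a x + b x) :: l) v =
      cupProd (pre ++ a :: l) v + cupProd (pre ++ b :: l) v := by
  induction pre generalizing v with
  | nil => simp only [List.nil_append, cupProd]; ring
  | cons c pre ih => simp only [List.cons_append, cupProd, ih]; ring

/-- The product vanishes as soon as one label does not change along the chain. -/
lemma cupProd_eq_zero {l : List (V → ZMod 2)} {v : ℕ → V} {i : ℕ} (hi : i < l.length)
    (h : l[i] (v i) = l[i] (v (i + 1))) : cupProd l v = 0 := by
  induction l generalizing v i with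
  | nil => simp at hi
  | cons a l ih =>
    rw [cupProd]
    cases i with
    | zero =>
      simp only [List.getElem_cons_zero] at h
      rw [h, CharTwo.add_self_eq_zero, zero_mul]
    | succ i =>
      rw [ih (v := fun m => v (m + 1)) (by simpa using hi) (by simpa using h), mul_zero]

/-- The product is one exactly when every label changes at its step. -/
lemma cupProd_eq_one_iff (l : List (V → ZMod 2)) (v : ℕ → V) :
    cupProd l v = 1 ↔ ∀ i (hi : i < l.length), l[i] (v i) ≠ l[i] (v (i + 1)) := by
  induction l generalizing v with
  | nil => simp [cupProd]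
  | cons a l ih =>
    have key : ∀ p q P : ZMod 2, (p + q) * P = 1 ↔ p ≠ q ∧ P = 1 := by decide
    rw [cupProd, key, ih]
    constructor
    · rintro ⟨h1, h2⟩ i hi
      cases i with
      | zero => simpa using h1
      | succ i => simpa using h2 i (by simpa using hi)
    · intro h
      exact ⟨h 0 (by simp), fun i hi => h (i + 1) (by simpa using hi)⟩

end Vale.Agent.P371.Full.Topo
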