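import Mathlib
import Vale.Agent.P371.Full.Topo.Cup

/-!
# Monotone unit chains in a product of cube boundaries and a cube, modulo sign flips of the factors

A chain is given by the absolute values `q` of its first vertex, the signs `τ` and the coordinate
`e k` raised at step `k`. In every row exactly one coordinate is never raised; it has absolute
value `M` and sign plus. The coordinates without a row are those of the cube.
-/

namespace Vale.Agent.P371.Full.Topo

variable {C R : Type} {d M : ℕ}

/-- A chain. -/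
abbrev Chain (C : Type) (d M : ℕ) : Type := (C → Fin (M + 1)) × (C → Bool) × (Fin d → C)

/-- The conditions on a chain. -/
structure Ok (row : C → Option R) (s : Chain C d M) : Prop where
  inj : Function.Injective s.2.2
  room : ∀ k, (s.1 (s.2.2 k) : ℕ) < M
  cube : ∀ c, row c = none → c ∈ Set.range s.2.2 ∧ s.2.1 c = false
  pivot : ∀ r, ∃ p, row p = some r ∧ (s.1 p : ℕ) = M ∧ s.2.1 p = false ∧ p ∉ Set.range s.2.2 ∧
    ∀ c, row c = some r → c ≠ p → c ∈ Set.range s.2.2

variable [DecidableEq C] [DecidableEq R]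

/-- The absolute value of coordinate `c` at vertex `m`. -/
def height (s : Chain C d M) (m : ℕ) (c : C) : ℕ :=
  (s.1 c : ℕ) + if ∃ j : Fin d, (j : ℕ) < m ∧ s.2.2 j = c then 1 else 0

/-- The vertices of a chain. -/
def vert (s : Chain C d M) (m : ℕ) (c : C) : ℤ :=
  if s.2.1 c then -(height s m c : ℤ) else (height s m c : ℤ)

/-- Change the signs in one row. -/
def flipRow (row : C → Option R) (r : R) (v : C → ℤ) : C → ℤ :=
  fun c => if row c = some r then -(v c) else v c

/-- The grid points. -/
structure InDom (row : C → Option R) (M : ℕ) (v : C → ℤ) : Prop where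
  bound : ∀ c, |v c| ≤ M
  face : ∀ r, ∃ c, row c = some r ∧ |v c| = M
  nonneg : ∀ c, row c = none → 0 ≤ v c

variable {row : C → Option R}

omit [DecidableEq R] in
lemma height_raised {s : Chain C d M} {m : ℕ} {c : C} (j : Fin d) (hj : (j : ℕ) < m)
    (he : s.2.2 j = c) : height s m c = (s.1 c : ℕ) + 1 := by
  rw [height, if_pos ⟨j, hj, he⟩]

omit [DecidableEq R] in
lemma height_kept {s : Chain C d M} {m : ℕ} {c : C}
    (h : ∀ j : Fin d, (j : ℕ) < m → s.2.2 j ≠ c) : height s m c = (s.1 c : ℕ) := by
  rw [height, if_neg fun ⟨j, hj, he⟩ => h j hj he, add_zero]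

omit [DecidableEq R] in
lemma height_congr {s s' : Chain C d M} {m m' : ℕ} {c : C} (hq : s.1 c = s'.1 c)
    (h : (∃ j : Fin d, (j : ℕ) < m ∧ s.2.2 j = c) ↔ ∃ j : Fin d, (j : ℕ) < m' ∧ s'.2.2 j = c) :
    height s m c = height s' m' c := by
  rw [height, height, hq]
  by_cases hh : ∃ j : Fin d, (j : ℕ) < m ∧ s.2.2 j = c
  · rw [if_pos hh, if_pos (h.1 hh)]
  · rw [if_neg hh, if_neg (mt h.2 hh)]

omit [DecidableEq R] in
lemma height_le {s : Chain C d M} (h : Ok row s) (m : ℕ) (c : C) : height s m c ≤ M := by
  rw [height]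
  split
  · next hh => obtain ⟨j, -, rfl⟩ := hh; have := h.room j; omega
  · have := (s.1 c).isLt; omega

omit [DecidableEq R] in
lemma abs_vert (s : Chain C d M) (m : ℕ) (c : C) : |vert s m c| = height s m c := by
  rw [vert]
  split <;> simp

omit [DecidableEq R] in
lemma inDom_vert {s : Chain C d M} (h : Ok row s) (m : ℕ) : InDom row M (vert s m) where
  bound c := by rw [abs_vert]; exact_mod_cast height_le h m c
  face r := by
    obtain ⟨p, hp, hq, -, hnot, -⟩ := h.pivot r
    refine ⟨p, hp, ?_⟩
    rw [abs_vert, height, if_neg (fun ⟨j, _, hj⟩ => hnot ⟨j, hj⟩), add_zero, hq]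
  nonneg c hc := by simp [vert, (h.cube c hc).2]

omit [DecidableEq C] in
lemma InDom.flip {v : C → ℤ} (h : InDom row M v) (r : R) : InDom row M (flipRow row r v) where
  bound c := by rw [flipRow]; split <;> simp [h.bound c]
  face r' := by
    obtain ⟨c, hc, hv⟩ := h.face r'
    exact ⟨c, hc, by rw [flipRow]; split <;> simp [hv]⟩
  nonneg c hc := by simp [flipRow, hc, h.nonneg c hc]

/-- Labels of the equations: odd in the prescribed rows; the equation of a cube coordinate is `0`
where this coordinate is `0` and `1` where it is `M`. -/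
structure Labels (row : C → Option R) (M : ℕ) (chi : Fin d → R → ZMod 2) (eqOf : C → Fin d)
    (L : Fin d → (C → ℤ) → ZMod 2) : Prop where
  flip : ∀ i r v, InDom row M v → L i (flipRow row r v) = L i v + chi i r
  low : ∀ c, row c = none → ∀ v, InDom row M v → v c = 0 → L (eqOf c) v = 0
  high : ∀ c, row c = none → ∀ v, InDom row M v → v c = M → L (eqOf c) v = 1

/-- The parity of the completely changing chains. -/
noncomputable def parity [Fintype C] (row : C → Option R) (M : ℕ)
    (L : Fin d → (C → ℤ) → ZMod 2) : ZMod 2 :=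
  letI := Classical.decPred fun s : Chain C d M => Ok row s
  ∑ s ∈ Finset.univ.filter (fun s : Chain C d M => Ok row s), cupProd (List.ofFn L) (vert s)

omit [DecidableEq R] in
lemma cupVal_eq_zero_of_const {V : Type*} {pre : List (V → ZMod 2)} {t : V → ZMod 2}
    {l : List (V → ZMod 2)} {v : ℕ → V}
    (h : (∀ m ≤ pre.length + l.length, t (v m) = 0) ∨
      ∃ a, (a ∈ pre ∨ a ∈ l) ∧ ∀ m ≤ pre.length + l.length, a (v m) = a (v 0)) :
    cupVal pre t l v = 0 := by
  induction pre generalizing v with
  | nil =>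
    rw [cupVal]
    rcases h with h | ⟨a, ha, hc⟩
    · rw [h 0 (Nat.zero_le _), zero_mul]
    · rcases ha with ha | ha
      · exact absurd ha List.not_mem_nil
      · obtain ⟨i, hi, rfl⟩ := List.mem_iff_getElem.1 ha
        rw [cupProd_eq_zero hi ((hc i (by simp; omega)).trans (hc (i + 1) (by simp; omega)).symm),
          mul_zero]
  | cons a pre ih =>
    rw [cupVal]
    rcases h with h | ⟨b, hb, hc⟩
    · rw [ih (Or.inl fun m hm => h (m + 1) (by simp; omega)), mul_zero]
    · by_cases hab : b = a
      · subst hab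
        rw [hc 1 (by simp; omega), CharTwo.add_self_eq_zero, zero_mul]
      · rw [ih (Or.inr ⟨b, hb.imp_left fun h => (List.mem_cons.1 h).resolve_left hab, fun m hm =>
          (hc (m + 1) (by simp; omega)).trans (hc 1 (by simp; omega)).symm⟩), mul_zero]

omit [DecidableEq C] in
lemma cupProd_flip {r : R} {l : List ((C → ℤ) → ZMod 2)}
    (hl : ∀ a ∈ l, ∃ x, ∀ v, InDom row M v → a (flipRow row r v) = a v + x) {v : ℕ → C → ℤ}
    (hv : ∀ m ≤ l.length, InDom row M (v m)) :
    cupProd l (fun m => flipRow row r (v m)) = cupProd l v := by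
  induction l generalizing v with
  | nil => rfl
  | cons a l ih =>
    obtain ⟨x, hx⟩ := hl a List.mem_cons_self
    rw [cupProd, cupProd, hx _ (hv 0 (Nat.zero_le _)), hx _ (hv 1 (by simp)), add_add_add_comm, CharTwo.add_self_eq_zero,
      add_zero, ih (fun b hb => hl b (List.mem_cons_of_mem _ hb)) (v := fun m => v (m + 1))
        fun m hm => hv (m + 1) (by simp; omega)]

omit [DecidableEq C] in
lemma cupVal_flip {r : R}
    {pre l : List ((C → ℤ) → ZMod 2)} {t : (C → ℤ) → ZMod 2}
    (hl : ∀ a, a ∈ pre ∨ a ∈ l → ∃ x, ∀ v, InDom row M v → a (flipRow row r v) = a v + x)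
    (ht : ∀ v, InDom row M v → t (flipRow row r v) = t v) {v : ℕ → C → ℤ}
    (hv : ∀ m ≤ pre.length + l.length, InDom row M (v m)) :
    cupVal pre t l (fun m => flipRow row r (v m)) = cupVal pre t l v := by
  induction pre generalizing v with
  | nil =>
    rw [cupVal, cupVal, ht _ (hv 0 (Nat.zero_le _)),
      cupProd_flip (fun a ha => hl a (Or.inr ha)) fun m hm => hv m (by simpa using hm)]
  | cons a pre ih =>
    obtain ⟨x, hx⟩ := hl a (Or.inl List.mem_cons_self)
    rw [cupVal, cupVal, hx _ (hv 0 (Nat.zero_le _)), hx _ (hv 1 (by simp; omega)), add_add_add_comm,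
      CharTwo.add_self_eq_zero, add_zero,
      ih (fun b hb => hl b (hb.imp_left (List.mem_cons_of_mem _))) (v := fun m => v (m + 1))
        fun m hm => hv (m + 1) (by simp; omega)]

omit [DecidableEq C] [DecidableEq R] in
lemma Ok.pivot_unique {s : Chain C d M} (h : Ok row s) {r : R} {p p' : C}
    (h1 : row p = some r ∧ p ∉ Set.range s.2.2) (h2 : row p' = some r ∧ p' ∉ Set.range s.2.2) :
    p = p' := by
  obtain ⟨p0, -, -, -, -, hu⟩ := h.pivot r
  have key : ∀ c, row c = some r ∧ c ∉ Set.range s.2.2 → c = p0 := fun c hc =>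
    by_contra fun hne => hc.2 (hu c hc.1 hne)
  exact (key p h1).trans (key p' h2).symm

end Vale.Agent.P371.Full.Topo
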