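import Mathlib
import Vale.Agent.P371.Full.Topo.Chains

/-!
# The pairing of the faces of the chains

A face is a chain without one vertex. An interior vertex is replaced by exchanging two steps; the
first vertex by continuing at the end, or by moving the pivot of a row; the last vertex by
continuing at the start, or by changing a sign.
-/

namespace Vale.Agent.P371.Full.Topo

variable {C R : Type} [DecidableEq C] [DecidableEq R] {n M : ℕ}

/-- Change one absolute value. -/
def setQ (q : C → Fin (M + 1)) (c : C) (a : ℕ) : C → Fin (M + 1) :=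
  Function.update q c ⟨min a M, Nat.lt_succ_of_le (Nat.min_le_right a M)⟩

open Classical in
/-- The coordinate of row `r` that is never raised. -/
noncomputable def pivotOf (row : C → Option R) (e : Fin (n + 1) → C) (r : R) : C :=
  if h : ∃ p, row p = some r ∧ p ∉ Set.range e then h.choose else e 0

/-- The partner of a face. -/
noncomputable def move (row : C → Option R) (x : Chain C (n + 1) M × Fin (n + 2)) :
    Chain C (n + 1) M × Fin (n + 2) :=
  if x.2 = 0 then
    if (x.1.1 (x.1.2.2 0) : ℕ) + 1 < M then
      ((setQ x.1.1 (x.1.2.2 0) ((x.1.1 (x.1.2.2 0) : ℕ) + 1), x.1.2.1,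
        fun j => x.1.2.2 (j + 1)), Fin.last (n + 1))
    else
      match row (x.1.2.2 0) with
      | none => x
      | some r =>
        ((setQ (setQ x.1.1 (x.1.2.2 0) M) (pivotOf row x.1.2.2 r) (M - 1),
          fun c => if row c = some r then xor (x.1.2.1 c) (x.1.2.1 (x.1.2.2 0)) else x.1.2.1 c,
          Function.update x.1.2.2 0 (pivotOf row x.1.2.2 r)), 0)
  else if h : (x.2 : ℕ) = n + 1 then
    if 0 < (x.1.1 (x.1.2.2 (Fin.last n)) : ℕ) then
      ((setQ x.1.1 (x.1.2.2 (Fin.last n)) ((x.1.1 (x.1.2.2 (Fin.last n)) : ℕ) - 1), x.1.2.1,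
        fun j => x.1.2.2 (j - 1)), 0)
    else
      match row (x.1.2.2 (Fin.last n)) with
      | none => x
      | some _ => ((x.1.1, Function.update x.1.2.1 (x.1.2.2 (Fin.last n))
          (!x.1.2.1 (x.1.2.2 (Fin.last n))), x.1.2.2), x.2)
  else
    ((x.1.1, x.1.2.1, x.1.2.2 ∘ Equiv.swap (⟨(x.2 : ℕ) - 1, by omega⟩ : Fin (n + 1))
      ⟨(x.2 : ℕ), by omega⟩), x.2)

variable {row : C → Option R}

omit [DecidableEq R] in
lemma setQ_self (q : C → Fin (M + 1)) (c : C) {a : ℕ} (h : a ≤ M) :
    ((setQ q c a c : Fin (M + 1)) : ℕ) = a := by simp [setQ, h]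

omit [DecidableEq R] in
lemma setQ_ne (q : C → Fin (M + 1)) {c x : C} (a : ℕ) (h : x ≠ c) : setQ q c a x = q x := by
  simp [setQ, h]

omit [DecidableEq R] in
lemma setQ_setQ_cancel (q : C → Fin (M + 1)) (c : C) (a : ℕ) :
    setQ (setQ q c a) c (q c : ℕ) = q := by
  funext x
  by_cases h : x = c
  · subst h
    ext
    rw [setQ_self _ _ (Nat.lt_succ_iff.1 (q x).isLt)]
  · rw [setQ_ne _ _ h, setQ_ne _ _ h]

omit [DecidableEq C] [DecidableEq R] in
lemma pivotOf_spec {e : Fin (n + 1) → C} {r : R} (h : ∃ p, row p = some r ∧ p ∉ Set.range e) :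
    row (pivotOf row e r) = some r ∧ pivotOf row e r ∉ Set.range e := by
  rw [pivotOf, dif_pos h]
  exact h.choose_spec

omit [DecidableEq C] in
lemma range_shift_up (e : Fin (n + 1) → C) : Set.range (fun j => e (j + 1)) = Set.range e :=
  (Equiv.addRight (1 : Fin (n + 1))).surjective.range_comp e

omit [DecidableEq C] in
lemma range_shift_down (e : Fin (n + 1) → C) : Set.range (fun j => e (j - 1)) = Set.range e :=
  (Equiv.subRight (1 : Fin (n + 1))).surjective.range_comp e

/-! ### The four kinds of moves -/

omit [DecidableEq C] [DecidableEq R] in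
lemma ok_perm {q : C → Fin (M + 1)} {τ : C → Bool} {e : Fin (n + 1) → C}
    (h : Ok row (q, τ, e)) (σ : Equiv.Perm (Fin (n + 1))) : Ok row (q, τ, e ∘ σ) where
  inj := h.inj.comp σ.injective
  room k := h.room (σ k)
  cube c hc := by simpa [σ.surjective.range_comp] using h.cube c hc
  pivot r := by simpa [σ.surjective.range_comp] using h.pivot r

omit [DecidableEq R] in
lemma ok_setQ {q : C → Fin (M + 1)} {τ : C → Bool} {e : Fin (n + 1) → C}
    (h : Ok row (q, τ, e)) (j : Fin (n + 1)) {a : ℕ} (ha : a < M) :
    Ok row (setQ q (e j) a, τ, e) where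
  inj := h.inj
  room k := by
    by_cases hk : e k = e j
    · simp [hk, setQ_self _ _ ha.le, ha]
    · simpa [setQ_ne _ _ hk] using h.room k
  cube := h.cube
  pivot r := by
    obtain ⟨p, h1, h2, h3, h4, h5⟩ := h.pivot r
    exact ⟨p, h1, by simpa [setQ_ne _ _ (show p ≠ e j from fun he => h4 ⟨j, he.symm⟩)] using h2,
      h3, h4, h5⟩

omit [DecidableEq R] in
lemma vert_eq_of {s s' : Chain C (n + 1) M} {m m' : ℕ} (hτ : s.2.1 = s'.2.1)
    (hh : ∀ c, height s m c = height s' m' c) : vert s m = vert s' m' := by
  funext c
  simp [vert, hτ, hh c]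

omit [DecidableEq R] in
lemma vert_swap (q : C → Fin (M + 1)) (τ : C → Bool) (e : Fin (n + 1) → C) {k : ℕ} (hk0 : 0 < k)
    (hkn : k < n + 1) {m : ℕ} (hm : m ≠ k) :
    vert ((q, τ, e ∘ Equiv.swap (⟨k - 1, by omega⟩ : Fin (n + 1)) ⟨k, hkn⟩) : Chain C (n + 1) M) m =
      vert ((q, τ, e) : Chain C (n + 1) M) m := by
  refine vert_eq_of rfl fun c => height_congr rfl ?_
  simp only
  set σ := Equiv.swap (⟨k - 1, by omega⟩ : Fin (n + 1)) ⟨k, hkn⟩
  have hσ : ∀ j : Fin (n + 1), (σ j : ℕ) < m ↔ (j : ℕ) < m := fun j => by
    simp only [σ, Equiv.swap_apply_def]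
    split_ifs with h1 h2
    · subst h1; simp; omega
    · subst h2; simp; omega
    · rfl
  constructor
  · rintro ⟨j, hj, rfl⟩
    exact ⟨σ j, (hσ j).2 hj, rfl⟩
  · rintro ⟨j, hj, rfl⟩
    exact ⟨σ j, (hσ j).2 hj, by simp [σ]⟩

lemma fin_add_one_val (j : Fin (n + 1)) (h : (j : ℕ) < n) : ((j + 1 : Fin (n + 1)) : ℕ) = j + 1 := by
  rw [Fin.val_add_one_of_lt]
  exact Fin.lt_def.2 (by simpa using h)

omit [DecidableEq R] in
lemma vert_up {q : C → Fin (M + 1)} {τ : C → Bool} {e : Fin (n + 1) → C}
    (he : Function.Injective e) (hq : (q (e 0) : ℕ) < M) {m : ℕ} (hm : m ≤ n) :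
    vert ((setQ q (e 0) ((q (e 0) : ℕ) + 1), τ, fun j => e (j + 1)) : Chain C (n + 1) M) m =
      vert ((q, τ, e) : Chain C (n + 1) M) (m + 1) := by
  refine vert_eq_of rfl fun c => ?_
  by_cases hc : c = e 0
  · subst hc
    rw [height_kept ?_, height_raised 0 (by simp) rfl, setQ_self _ _ hq]
    intro j hj hje
    have := congrArg (fun i : Fin (n + 1) => (i : ℕ)) (he hje)
    rw [fin_add_one_val j (by omega)] at this
    simp at this
  · refine height_congr (setQ_ne _ _ hc) ?_
    simp only
    constructor
    · rintro ⟨j, hj, rfl⟩
      exact ⟨j + 1, by rw [fin_add_one_val j (by omega)]; omega, rfl⟩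
    · rintro ⟨j, hj, rfl⟩
      have h0 : (j : ℕ) ≠ 0 := fun h0 => hc (congrArg e (Fin.ext h0))
      refine ⟨⟨(j : ℕ) - 1, by omega⟩, by simp; omega, congrArg e (Fin.ext ?_)⟩
      rw [fin_add_one_val _ (by simp; omega)]
      simp
      omega

omit [DecidableEq R] in
lemma ok_flipSign {q : C → Fin (M + 1)} {τ : C → Bool} {e : Fin (n + 1) → C}
    (h : Ok row (q, τ, e)) (j : Fin (n + 1)) {r : R} (hr : row (e j) = some r) :
    Ok row (q, Function.update τ (e j) (!τ (e j)), e) where
  inj := h.inj
  room := h.room
  cube c hc := by
    refine ⟨(h.cube c hc).1, ?_⟩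
    have := (h.cube c hc).2
    simp only at this
    simp [Function.update_of_ne (show c ≠ e j from fun he => by simp [he, hr] at hc), this]
  pivot r' := by
    obtain ⟨p, h1, h2, h3, h4, h5⟩ := h.pivot r'
    refine ⟨p, h1, h2, ?_, h4, h5⟩
    simpa [Function.update_of_ne (show p ≠ e j from fun he => h4 ⟨j, he.symm⟩)] using h3

omit [DecidableEq R] in
lemma vert_flipSign {q : C → Fin (M + 1)} {τ : C → Bool} {e : Fin (n + 1) → C}
    (he : Function.Injective e) (hq : (q (e (Fin.last n)) : ℕ) = 0) {m : ℕ} (hm : m ≤ n) :
    vert ((q, Function.update τ (e (Fin.last n)) (!τ (e (Fin.last n))), e) : Chain C (n + 1) M) m =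
      vert ((q, τ, e) : Chain C (n + 1) M) m := by
  funext c
  by_cases hc : c = e (Fin.last n)
  · subst hc
    have h0 : height ((q, τ, e) : Chain C (n + 1) M) m (e (Fin.last n)) = 0 := by
      rw [height_kept ?_]
      · exact hq
      intro j hj hje
      rw [he hje] at hj
      simp at hj
      omega
    simp only [vert]
    rw [show height ((q, Function.update τ (e (Fin.last n)) (!τ (e (Fin.last n))), e) :
      Chain C (n + 1) M) m (e (Fin.last n)) = 0 from h0, h0]
    simp
  · simp [vert, height, Function.update_of_ne hc]

/-- The data of a move of the pivot. -/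
def pivoted (row : C → Option R) (q : C → Fin (M + 1)) (τ : C → Bool) (e : Fin (n + 1) → C)
    (r : R) (p : C) : Chain C (n + 1) M :=
  (setQ (setQ q (e 0) M) p (M - 1),
    fun c => if row c = some r then xor (τ c) (τ (e 0)) else τ c, Function.update e 0 p)

lemma ok_pivot {q : C → Fin (M + 1)} {τ : C → Bool} {e : Fin (n + 1) → C}
    (h : Ok row (q, τ, e)) {r : R} {p : C} (hr : row (e 0) = some r)
    (hp : row p = some r ∧ p ∉ Set.range e) : Ok row (pivoted row q τ e r p) := by
  have hpe : ∀ j, e j ≠ p := fun j hj => hp.2 ⟨j, hj⟩
  have hmem : ∀ c, c ∈ Set.range e → c ≠ e 0 → c ∈ Set.range (Function.update e 0 p) := by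
    rintro c ⟨j, rfl⟩ hc
    exact ⟨j, Function.update_of_ne (fun hj => hc (congrArg e hj)) _ _⟩
  have hnot : ∀ c, c ≠ p → c ∉ Set.range e ∨ c = e 0 → c ∉ Set.range (Function.update e 0 p) := by
    rintro c hcp hc ⟨j, hj⟩
    by_cases hj0 : j = 0
    · subst hj0
      rw [Function.update_self] at hj
      exact hcp hj.symm
    · rw [Function.update_of_ne hj0] at hj
      rcases hc with hc | hc
      · exact hc ⟨j, hj⟩
      · exact hj0 (h.inj (hj.trans hc))
  refine ⟨fun i j hij => ?_, fun k => ?_, fun c hc => ?_, fun r' => ?_⟩
  · simp only [pivoted] at hij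
    by_cases hi : i = 0 <;> by_cases hj : j = 0
    · exact hi.trans hj.symm
    · subst hi
      rw [Function.update_self, Function.update_of_ne hj] at hij
      exact absurd hij.symm (hpe j)
    · subst hj
      rw [Function.update_self, Function.update_of_ne hi] at hij
      exact absurd hij (hpe i)
    · rw [Function.update_of_ne hi, Function.update_of_ne hj] at hij
      exact h.inj hij
  · simp only [pivoted]
    by_cases hk : k = 0
    · subst hk
      rw [Function.update_self, setQ_self _ _ (Nat.sub_le M 1)]
      have := h.room 0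
      simp only at this
      omega
    · rw [Function.update_of_ne hk, setQ_ne _ _ (hpe k),
        setQ_ne _ _ fun he => hk (h.inj he)]
      exact h.room k
  · have hce : c ≠ e 0 := fun he => by simp [he, hr] at hc
    exact ⟨hmem c (h.cube c hc).1 hce, by simpa [pivoted, hc] using (h.cube c hc).2⟩
  · by_cases hr' : r' = r
    · subst hr'
      refine ⟨e 0, hr, ?_, by simp [pivoted, hr], hnot _ (hpe 0) (Or.inr rfl), fun c hc hc0 => ?_⟩
      · simp only [pivoted]
        rw [setQ_ne _ _ (hpe 0), setQ_self _ _ le_rfl]
      · by_cases hcp : c = p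
        · exact ⟨0, by simp [pivoted, hcp]⟩
        · refine hmem c ?_ hc0
          by_contra hcn
          exact hcp (h.pivot_unique ⟨hc, hcn⟩ hp)
    · obtain ⟨p', h1, h2, h3, h4, h5⟩ := h.pivot r'
      have hp'p : p' ≠ p := fun he => hr' (Option.some.inj (h1.symm.trans (he ▸ hp.1)))
      have hp'0 : p' ≠ e 0 := fun he => h4 ⟨0, he.symm⟩
      refine ⟨p', h1, ?_, ?_, hnot _ hp'p (Or.inl h4), fun c hc hc' => hmem c (h5 c hc hc') ?_⟩
      · simp only [pivoted]
        rw [setQ_ne _ _ hp'p, setQ_ne _ _ hp'0]
        exact h2
      · simp only at h3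
        simp [pivoted, h1, hr', h3]
      · intro he
        exact hr' (Option.some.inj (hc.symm.trans (he ▸ hr)))

lemma vert_pivot {q : C → Fin (M + 1)} {τ : C → Bool} {e : Fin (n + 1) → C}
    (h : Ok row (q, τ, e)) {r : R} {p : C}
    (hp : row p = some r ∧ p ∉ Set.range e) (hq : (q (e 0) : ℕ) + 1 = M) (m : ℕ) :
    vert (pivoted row q τ e r p) (m + 1) =
      if τ (e 0) then flipRow row r (vert ((q, τ, e) : Chain C (n + 1) M) (m + 1))
      else vert ((q, τ, e) : Chain C (n + 1) M) (m + 1) := by
  have hqp : (q p : ℕ) = M := by
    obtain ⟨p0, h1, h2, -, h4, -⟩ := h.pivot r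
    rwa [h.pivot_unique hp ⟨h1, h4⟩]
  have hh : ∀ c, height (pivoted row q τ e r p) (m + 1) c =
      height ((q, τ, e) : Chain C (n + 1) M) (m + 1) c := by
    intro c
    by_cases hcp : c = p
    · subst hcp
      rw [height_raised 0 (by simp) (show (pivoted row q τ e r c).2.2 0 = c by simp [pivoted]),
        height_kept fun j _ hj => hp.2 ⟨j, hj⟩]
      simp only [pivoted]
      rw [setQ_self _ _ (Nat.sub_le M 1), hqp]
      omega
    by_cases hc0 : c = e 0
    · subst hc0
      rw [height_kept ?_, height_raised 0 (by simp) rfl]
      · simp only [pivoted]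
        rw [setQ_ne _ _ hcp, setQ_self _ _ le_rfl, hq]
      intro j _ hje
      simp only [pivoted] at hje
      by_cases hj : j = 0
      · subst hj
        rw [Function.update_self] at hje
        exact hcp hje.symm
      · rw [Function.update_of_ne hj] at hje
        exact hj (h.inj hje)
    · refine height_congr ?_ ?_
      · simp only [pivoted]
        rw [setQ_ne _ _ hcp, setQ_ne _ _ hc0]
      simp only [pivoted]
      refine exists_congr fun j => and_congr_right fun _ => ?_
      by_cases hj : j = 0
      · subst hj
        rw [Function.update_self]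
        exact iff_of_false (Ne.symm hcp) (Ne.symm hc0)
      · rw [Function.update_of_ne hj]
  funext c
  simp only [vert, hh c]
  by_cases hτ : τ (e 0) = true
  · by_cases hc : row c = some r
    · rcases Bool.eq_false_or_eq_true (τ c) with hb | hb <;>
        simp [hτ, flipRow, pivoted, vert, hc, hb]
    · simp [hτ, flipRow, pivoted, vert, hc]
  · simp only [Bool.not_eq_true] at hτ
    simp [hτ, pivoted, vert]

/-! ### The pairing -/

section
variable [Fintype C]

open Classical in
/-- A sum over faces of a function that is invariant under sign flips and vanishes on the faces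
inside the boundary of the cube is zero. -/
theorem sum_faces_eq_zero (W : (ℕ → C → ℤ) → ZMod 2)
    (hcongr : ∀ v w, (∀ m ≤ n, v m = w m) → W v = W w)
    (hflip : ∀ r v, (∀ m ≤ n, InDom row M (v m)) → W (fun m => flipRow row r (v m)) = W v)
    (hlow : ∀ c, row c = none → ∀ v, (∀ m ≤ n, InDom row M (v m) ∧ v m c = 0) → W v = 0)
    (hhigh : ∀ c, row c = none → ∀ v, (∀ m ≤ n, InDom row M (v m) ∧ v m c = (M : ℤ)) → W v = 0) :
    ∑ s ∈ Finset.univ.filter (fun s : Chain C (n + 1) M => Ok row s),
      ∑ k ∈ Finset.range (n + 2), W (cut k (vert s)) = 0 := by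
  simp only [← Fin.sum_univ_eq_sum_range]
  rw [← Finset.sum_product']
  have facts : ∀ x : Chain C (n + 1) M × Fin (n + 2), Ok row x.1 →
      Ok row (move row x).1 ∧ move row (move row x) = x ∧
        W (cut (move row x).2 (vert (move row x).1)) = W (cut x.2 (vert x.1)) ∧
        (W (cut x.2 (vert x.1)) ≠ 0 → move row x ≠ x) := by
    rintro ⟨⟨q, τ, e⟩, k⟩ h
    simp only at h
    by_cases hk0 : k = 0
    · subst hk0
      have hqc := h.room 0
      simp only at hqc
      by_cases hlt : (q (e 0) : ℕ) + 1 < M
      · -- continue at the end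
        have hmv : move row (((q, τ, e) : Chain C (n + 1) M), 0) =
            ((setQ q (e 0) ((q (e 0) : ℕ) + 1), τ, fun j => e (j + 1)), Fin.last (n + 1)) := by
          simp [move, hlt]
        rw [hmv]
        have hlast : (Fin.last n + 1 : Fin (n + 1)) = 0 := Fin.last_add_one n
        refine ⟨ok_perm (ok_setQ h 0 hlt) (Equiv.addRight (1 : Fin (n + 1))), ?_, ?_, fun _ he => ?_⟩
        · simp only [move]
          rw [if_neg (by simp [Fin.ext_iff]), dif_pos (by simp)]
          simp only [hlast]
          rw [if_pos (by rw [setQ_self _ _ hlt.le]; omega), setQ_self _ _ hlt.le,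
            Nat.add_sub_cancel, setQ_setQ_cancel]
          simp
        · refine hcongr _ _ fun m hm => ?_
          have e1 : ∀ v : ℕ → C → ℤ, cut (n + 1) v m = v m := fun v => by
            simp [cut, Nat.lt_succ_of_le hm]
          simp only [Fin.val_last, Fin.val_zero, e1, cut_zero]
          exact vert_up h.inj hqc hm
        · simpa [Fin.ext_iff] using congrArg Prod.snd he
      · have hq : (q (e 0) : ℕ) + 1 = M := by omega
        rcases hr : row (e 0) with _ | r
        · -- the face lies where a cube coordinate is maximal
          have hmv : move row (((q, τ, e) : Chain C (n + 1) M), 0) = ((q, τ, e), 0) := by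
            simp [move, hlt, hr]
          rw [hmv]
          refine ⟨h, hmv, rfl, fun hW => absurd (hhigh (e 0) hr _ fun m _ => ?_) hW⟩
          simp only [Fin.val_zero, cut_zero]
          refine ⟨inDom_vert h _, ?_⟩
          have := (h.cube _ hr).2
          simp only [vert] at this ⊢
          rw [if_neg (fun h' => by rw [h'] at this; cases this), height_raised 0 (by simp) rfl]
          exact_mod_cast hq
        · -- move the pivot
          obtain ⟨p0, hp1, -, -, hp4, -⟩ := h.pivot r
          set p := pivotOf row e r
          have hp : row p = some r ∧ p ∉ Set.range e := pivotOf_spec ⟨p0, hp1, hp4⟩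
          have hmv : move row (((q, τ, e) : Chain C (n + 1) M), 0) =
              (pivoted row q τ e r p, 0) := by
            simp [move, hlt, hr, pivoted, p]
          rw [hmv]
          have hok := ok_pivot h hr hp
          have hpc : e 0 ≠ p := fun he => hp.2 ⟨0, he⟩
          have hM : 0 < M := by omega
          obtain ⟨p1, hq1, hq2, hq3, hq4, -⟩ := h.pivot r
          have hpp : p = p1 := h.pivot_unique hp ⟨hq1, hq4⟩
          have hqp : (q p : ℕ) = M := hpp ▸ hq2
          have hτp : τ p = false := hpp ▸ hq3
          refine ⟨hok, ?_, ?_, fun _ he => ?_⟩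
          · have hback : pivotOf row (Function.update e 0 p) r = e 0 := by
              have hnot : e 0 ∉ Set.range (Function.update e 0 p) := by
                rintro ⟨j, hj⟩
                by_cases hj0 : j = 0
                · subst hj0
                  rw [Function.update_self] at hj
                  exact hpc hj.symm
                · rw [Function.update_of_ne hj0] at hj
                  exact hj0 (h.inj hj)
              exact hok.pivot_unique (pivotOf_spec ⟨e 0, hr, hnot⟩) ⟨hr, hnot⟩
            simp only [move, pivoted, if_true, Function.update_self]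
            rw [if_neg (by rw [setQ_self _ _ (Nat.sub_le M 1)]; omega)]
            simp only [hp.1, hback, if_true]
            refine Prod.ext (Prod.ext ?_ (Prod.ext ?_ ?_)) rfl
            · funext c
              refine Fin.ext ?_
              simp only
              by_cases hc : c = e 0
              · subst hc
                rw [setQ_self _ _ (Nat.sub_le M 1)]
                omega
              · rw [setQ_ne _ _ hc]
                by_cases hc' : c = p
                · subst hc'
                  rw [setQ_self _ _ le_rfl, hqp]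
                · rw [setQ_ne _ _ hc', setQ_ne _ _ hc', setQ_ne _ _ hc]
            · funext c
              simp only
              by_cases hc : row c = some r
              · simp [hc, hτp]
              · simp [hc]
            · simp
          · simp only [Fin.val_zero, cut_zero]
            rw [show (fun m => vert (pivoted row q τ e r p) (m + 1)) = _ from
              funext fun m => vert_pivot h hp hq m]
            cases τ (e 0) with
            | false => simp
            | true =>
              simp only [if_true]
              exact hflip r _ fun m _ => inDom_vert h _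
          · have := congrArg (fun x => x.1.2.2 0) he
            simp [pivoted] at this
            exact hpc this.symm
    · by_cases hkl : (k : ℕ) = n + 1
      · have hk : k = Fin.last (n + 1) := Fin.ext hkl
        subst hk
        have hqc := h.room (Fin.last n)
        simp only at hqc
        by_cases hpos : 0 < (q (e (Fin.last n)) : ℕ)
        · -- continue at the start
          have hmv : move row (((q, τ, e) : Chain C (n + 1) M), Fin.last (n + 1)) =
              ((setQ q (e (Fin.last n)) ((q (e (Fin.last n)) : ℕ) - 1), τ, fun j => e (j - 1)),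
                0) := by
            simp [move, hk0, hpos]
          rw [hmv]
          have hz : (0 - 1 : Fin (n + 1)) = Fin.last n := by
            rw [sub_eq_iff_eq_add, Fin.last_add_one]
          have hok := ok_perm (ok_setQ h (Fin.last n)
            (show (q (e (Fin.last n)) : ℕ) - 1 < M by omega)) (Equiv.subRight (1 : Fin (n + 1)))
          refine ⟨hok, ?_, ?_, fun _ he => ?_⟩
          · simp only [move, if_true, hz]
            rw [setQ_self _ _ (by omega), Nat.sub_add_cancel hpos, if_pos hqc, setQ_setQ_cancel]
            simp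
          · refine hcongr _ _ fun m hm => ?_
            have e1 : ∀ v : ℕ → C → ℤ, cut (n + 1) v m = v m := fun v => by
              simp [cut, Nat.lt_succ_of_le hm]
            simp only [Fin.val_last, Fin.val_zero, e1, cut_zero]
            have hup := vert_up (q := setQ q (e (Fin.last n)) ((q (e (Fin.last n)) : ℕ) - 1))
              (τ := τ) (e := fun j => e (j - 1)) (M := M) (h.inj.comp sub_left_injective)
              (by simp only [hz]; rw [setQ_self _ _ (by omega)]; omega) hm
            rw [← hup]
            simp only [hz, setQ_self _ _ (show (q (e (Fin.last n)) : ℕ) - 1 ≤ M by omega),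
              Nat.sub_add_cancel hpos, setQ_setQ_cancel, add_sub_cancel_right]
          · simpa [Fin.ext_iff] using congrArg Prod.snd he
        · have hq : (q (e (Fin.last n)) : ℕ) = 0 := by omega
          rcases hr : row (e (Fin.last n)) with _ | r
          · -- the face lies where a cube coordinate is zero
            have hmv : move row (((q, τ, e) : Chain C (n + 1) M), Fin.last (n + 1)) =
                ((q, τ, e), Fin.last (n + 1)) := by simp [move, hk0, hpos, hr]
            rw [hmv]
            refine ⟨h, hmv, rfl, fun hW => absurd (hlow _ hr _ fun m hm => ?_) hW⟩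
            simp only [Fin.val_last, cut, Nat.lt_succ_of_le hm, if_true]
            refine ⟨inDom_vert h _, ?_⟩
            have := (h.cube _ hr).2
            simp only [vert] at this ⊢
            rw [if_neg (fun h' => by rw [h'] at this; cases this), height_kept ?_]
            · exact_mod_cast hq
            intro j hj hje
            rw [h.inj hje] at hj
            simp at hj
            omega
          · -- change a sign
            have hmv : ∀ τ' : C → Bool,
                move row (((q, τ', e) : Chain C (n + 1) M), Fin.last (n + 1)) =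
                  ((q, Function.update τ' (e (Fin.last n)) (!τ' (e (Fin.last n))), e),
                    Fin.last (n + 1)) := fun τ' => by simp [move, hk0, hpos, hr]
            rw [hmv]
            refine ⟨ok_flipSign h _ hr, ?_, ?_, fun _ he => ?_⟩
            · rw [hmv]
              simp
            · refine hcongr _ _ fun m hm => ?_
              simp only [Fin.val_last, cut, Nat.lt_succ_of_le hm, if_true]
              exact vert_flipSign h.inj hq hm
            · have := congrArg (fun x => x.1.2.1 (e (Fin.last n))) he
              simp at this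
      · -- exchange two steps
        have hkpos : 0 < (k : ℕ) := Nat.pos_of_ne_zero fun hh => hk0 (Fin.ext hh)
        have hkn : (k : ℕ) < n + 1 := by omega
        set σ := Equiv.swap (⟨(k : ℕ) - 1, by omega⟩ : Fin (n + 1)) ⟨(k : ℕ), hkn⟩
        have hmv : ∀ e' : Fin (n + 1) → C, move row (((q, τ, e') : Chain C (n + 1) M), k) =
            ((q, τ, e' ∘ σ), k) := fun e' => by simp [move, hk0, hkl, σ]
        rw [hmv]
        refine ⟨ok_perm h σ, ?_, ?_, fun _ he => ?_⟩
        · rw [hmv, Function.comp_assoc]
          simp [σ, ← Equiv.coe_trans]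
        · refine hcongr _ _ fun m _ => ?_
          simp only [cut]
          by_cases hmk : m < (k : ℕ)
          · rw [if_pos hmk, if_pos hmk]
            exact vert_swap q τ e hkpos hkn (by omega)
          · rw [if_neg hmk, if_neg hmk]
            exact vert_swap q τ e hkpos hkn (by omega)
        · have hh := h.inj (congrFun (congrArg (fun x => x.1.2.2) he) ⟨(k : ℕ), hkn⟩)
          simp [σ, Fin.ext_iff] at hh
          omega
  refine Finset.sum_involution (fun x _ => move row x) (fun x hx => ?_) (fun x hx hne => ?_)
    (fun x hx => ?_) (fun x hx => ?_)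
  all_goals simp only [Finset.mem_product, Finset.mem_filter, Finset.mem_univ, true_and,
    and_true] at hx ⊢
  · rw [(facts x hx).2.2.1, CharTwo.add_self_eq_zero]
  · exact (facts x hx).2.2.2 hne
  · exact (facts x hx).1
  · exact (facts x hx).2.1

end

end Vale.Agent.P371.Full.Topo
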