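import Mathlib
import Vale.Agent.P371.Full.Topo.Move

/-!
# The parity does not depend on the labels
-/

namespace Vale.Agent.P371.Full.Topo

variable {C R : Type} [Fintype C] [DecidableEq C] [DecidableEq R] {n M : ℕ} {row : C → Option R}

lemma parity_update {chi : Fin (n + 1) → R → ZMod 2} {eqOf : C → Fin (n + 1)}
    {L : Fin (n + 1) → (C → ℤ) → ZMod 2} (i : Fin (n + 1)) {b : (C → ℤ) → ZMod 2}
    (hL : Labels row M chi eqOf L) (hb : Labels row M chi eqOf (Function.update L i b)) :
    parity row M (Function.update L i b) = parity row M L := by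
  classical
  set pre := (List.ofFn L).take i
  set suf := (List.ofFn L).drop ((i : ℕ) + 1)
  set t : (C → ℤ) → ZMod 2 := fun v => L i v + b v
  have hlen : pre.length + suf.length = n := by
    simp [pre, suf, -List.ofFn_succ]
    omega
  have hsplit : ∀ c : (C → ℤ) → ZMod 2,
      List.ofFn (Function.update L i c) = pre ++ c :: suf := fun c => by
    refine List.ext_getElem (by simp [pre, suf, -List.ofFn_succ]; omega) fun j h1 h2 => ?_
    simp only [List.length_ofFn] at h1
    simp only [List.getElem_ofFn]
    rcases lt_trichotomy j (i : ℕ) with hj | hj | hj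
    · rw [List.getElem_append_left (by simp [pre, -List.ofFn_succ]; omega)]
      rw [Function.update_of_ne (show (⟨j, h1⟩ : Fin (n + 1)) ≠ i by simp [Fin.ext_iff]; omega)]
      simp only [pre, List.getElem_take, List.getElem_ofFn]
    · subst hj
      rw [List.getElem_append_right (by simp [pre, -List.ofFn_succ])]
      simp [pre, -List.ofFn_succ]
    · rw [List.getElem_append_right (by simp [pre, -List.ofFn_succ]; omega)]
      have hp : pre.length = i := by simp [pre, -List.ofFn_succ]
      simp only [hp]
      obtain ⟨k, rfl⟩ := Nat.exists_eq_add_of_lt hj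
      simp only [show (i : ℕ) + k + 1 - (i : ℕ) = k + 1 by omega, List.getElem_cons_succ]
      rw [Function.update_of_ne
        (show (⟨(i : ℕ) + k + 1, h1⟩ : Fin (n + 1)) ≠ i by simp [Fin.ext_iff]; omega)]
      simp only [suf, List.getElem_drop, List.getElem_ofFn]
      congr 2
      omega
  have hL' : List.ofFn L = pre ++ L i :: suf := by
    rw [← hsplit, Function.update_eq_self]
  have hmem : ∀ j, j ≠ i → L j ∈ pre ∨ L j ∈ suf := by
    intro j hj
    rcases lt_or_gt_of_ne (show (j : ℕ) ≠ i from fun h => hj (Fin.ext h)) with h | h
    · exact Or.inl (List.mem_take_iff_getElem.2 ⟨j, by simp [-List.ofFn_succ]; omega,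
        by simp only [List.getElem_ofFn]⟩)
    · exact Or.inr (List.mem_drop_iff_getElem.2 ⟨(j : ℕ) - i - 1, by simp [-List.ofFn_succ]; omega,
        by simp only [List.getElem_ofFn, show (i : ℕ) + 1 + ((j : ℕ) - i - 1) = j by omega]⟩)
  have hchar : ∀ p q : ZMod 2, p + q = 0 → q = p := by decide
  refine hchar _ _ ?_
  calc parity row M L + parity row M (Function.update L i b)
      = ∑ s ∈ Finset.univ.filter (fun s : Chain C (n + 1) M => Ok row s),
          cupProd (pre ++ t :: suf) (vert s) := by
        simp only [parity, hsplit, hL', ← Finset.sum_add_distrib, t, cupProd_linear]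
    _ = ∑ s ∈ Finset.univ.filter (fun s : Chain C (n + 1) M => Ok row s),
          ∑ k ∈ Finset.range (n + 2), cupVal pre t suf (cut k (vert s)) := by
        refine Finset.sum_congr rfl fun s _ => ?_
        rw [← sum_cupVal_cut, hlen]
    _ = 0 := by
        refine sum_faces_eq_zero (row := row) (cupVal pre t suf)
          (fun v w h => cupVal_congr fun m hm => h m (hlen ▸ hm)) (fun r v hv => ?_)
          (fun c hc v hv => ?_) (fun c hc v hv => ?_)
        · refine cupVal_flip (fun a ha => ?_) (fun v hv => ?_) fun m hm => hv m (hlen ▸ hm)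
          · have ha' : a ∈ List.ofFn L :=
              ha.elim List.mem_of_mem_take List.mem_of_mem_drop
            obtain ⟨j, rfl⟩ := List.mem_ofFn.1 ha'
            exact ⟨chi j r, hL.flip j r⟩
          · have h1 := hb.flip i r v hv
            simp only [Function.update_self] at h1
            simp only [t, hL.flip i r v hv, h1]
            rw [add_add_add_comm, CharTwo.add_self_eq_zero, add_zero]
        · by_cases hi : eqOf c = i
          · refine cupVal_eq_zero_of_const (Or.inl fun m hm => ?_)
            have h1 := hb.low c hc _ (hv m (hlen ▸ hm)).1 (hv m (hlen ▸ hm)).2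
            rw [hi, Function.update_self] at h1
            simp [t, h1, hi ▸ hL.low c hc _ (hv m (hlen ▸ hm)).1 (hv m (hlen ▸ hm)).2]
          · refine cupVal_eq_zero_of_const (Or.inr ⟨L (eqOf c), hmem _ hi, fun m hm => ?_⟩)
            rw [hL.low c hc _ (hv m (hlen ▸ hm)).1 (hv m (hlen ▸ hm)).2,
              hL.low c hc _ (hv 0 (Nat.zero_le _)).1 (hv 0 (Nat.zero_le _)).2]
        · by_cases hi : eqOf c = i
          · refine cupVal_eq_zero_of_const (Or.inl fun m hm => ?_)
            have h1 := hb.high c hc _ (hv m (hlen ▸ hm)).1 (hv m (hlen ▸ hm)).2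
            rw [hi, Function.update_self] at h1
            simp only [t, h1, hi ▸ hL.high c hc _ (hv m (hlen ▸ hm)).1 (hv m (hlen ▸ hm)).2]
            rfl
          · refine cupVal_eq_zero_of_const (Or.inr ⟨L (eqOf c), hmem _ hi, fun m hm => ?_⟩)
            rw [hL.high c hc _ (hv m (hlen ▸ hm)).1 (hv m (hlen ▸ hm)).2,
              hL.high c hc _ (hv 0 (Nat.zero_le _)).1 (hv 0 (Nat.zero_le _)).2]

/-- The parity depends only on the kind of labels. -/
theorem parity_eq {chi : Fin (n + 1) → R → ZMod 2} {eqOf : C → Fin (n + 1)}
    {L L' : Fin (n + 1) → (C → ℤ) → ZMod 2} (hL : Labels row M chi eqOf L)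
    (hL' : Labels row M chi eqOf L') : parity row M L = parity row M L' := by
  let mix : ℕ → Fin (n + 1) → (C → ℤ) → ZMod 2 := fun j i => if (i : ℕ) < j then L' i else L i
  have hmix : ∀ j, Labels row M chi eqOf (mix j) := fun j =>
    { flip := fun i => by
        by_cases h : (i : ℕ) < j <;> simp only [mix, h, if_true, if_false]
        · exact hL'.flip i
        · exact hL.flip i
      low := fun c hc => by
        by_cases h : (eqOf c : ℕ) < j <;> simp only [mix, h, if_true, if_false]
        · exact hL'.low c hc
        · exact hL.low c hc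
      high := fun c hc => by
        by_cases h : (eqOf c : ℕ) < j <;> simp only [mix, h, if_true, if_false]
        · exact hL'.high c hc
        · exact hL.high c hc }
  have hind : ∀ j, j ≤ n + 1 → parity row M (mix j) = parity row M L := by
    intro j
    induction j with
    | zero => simp [mix]
    | succ j ih =>
      intro hj
      have e : mix (j + 1) = Function.update (mix j) ⟨j, hj⟩ (L' ⟨j, hj⟩) := by
        funext i
        by_cases hi : i = ⟨j, hj⟩
        · subst hi
          simp [mix]
        · have : (i : ℕ) ≠ j := fun h => hi (Fin.ext h)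
          simp only [mix, Function.update_of_ne hi]
          split_ifs <;> first | rfl | omega
      rw [e, parity_update _ (hmix j) (e ▸ hmix (j + 1)), ih (by omega)]
  have htop : mix (n + 1) = L' := funext fun i => if_pos i.isLt
  rw [← htop, hind _ le_rfl]

/-- The same for any number of equations. -/
theorem parity_congr {d : ℕ} {chi : Fin d → R → ZMod 2} {eqOf : C → Fin d}
    {L L' : Fin d → (C → ℤ) → ZMod 2} (hL : Labels row M chi eqOf L)
    (hL' : Labels row M chi eqOf L') : parity row M L = parity row M L' := by
  cases d with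
  | zero => simp [parity]
  | succ n => exact parity_eq hL hL'

omit [DecidableEq R] in
/-- The parity vanishes if every chain has a label that does not change. -/
theorem parity_eq_zero {d : ℕ} {L : Fin d → (C → ℤ) → ZMod 2}
    (h : ∀ s : Chain C d M, Ok row s → ∃ i : Fin d, L i (vert s i) = L i (vert s ((i : ℕ) + 1))) :
    parity row M L = 0 := by
  classical
  refine Finset.sum_eq_zero fun s hs => ?_
  obtain ⟨i, hi⟩ := h s (Finset.mem_filter.1 hs).2
  exact cupProd_eq_zero (i := (i : ℕ)) (by simp) (by simpa using hi)

end Vale.Agent.P371.Full.Topo
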