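import Mathlib
import Vale.Agent.P371.Full.Topo.Parity

/-!
# The parity of the test labels is one

Row `l` has `l + 1` coordinates and is the odd row of the equations `(j, l)`, `j < l`, together
with row `j`. A test label is the sign of the first nonzero entry in a list of coordinates.
-/

namespace Vale.Agent.P371.Full.Topo

/-- The coordinates. -/
abbrev Slot (N : ℕ) : Type := (Σ l : Fin N, Fin ((l : ℕ) + 1)) ⊕ Fin (N - 1)

/-- The number of equations. -/
abbrev numEq (N : ℕ) : ℕ := (∑ l : Fin N, (l : ℕ)) + (N - 1)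

variable {N : ℕ}

/-- The row of a coordinate. -/
def rowOf (c : Slot N) : Option (Fin N) := Sum.elim (fun x => some x.1) (fun _ => none) c

/-- The equations. -/
def eqEquiv (N : ℕ) : (Σ l : Fin N, Fin (l : ℕ)) ⊕ Fin (N - 1) ≃ Fin (numEq N) :=
  (Equiv.sumCongr (finSigmaFinEquiv (n := fun l : Fin N => (l : ℕ))) (Equiv.refl _)).trans
    finSumFinEquiv

/-- The index of the equation of a pair. -/
def pairEq (l : Fin N) (j : Fin (l : ℕ)) : Fin (numEq N) := eqEquiv N (Sum.inl ⟨l, j⟩)

/-- The index of the equation of a cube coordinate. -/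
def cubeEq (m : Fin (N - 1)) : Fin (numEq N) := eqEquiv N (Sum.inr m)

/-- The smaller row of a pair. -/
def small (l : Fin N) (j : Fin (l : ℕ)) : Fin N := j.castLE l.isLt.le

/-- The equation of a cube coordinate, for any coordinate. -/
def eqOfSlot (h : 0 < numEq N) (c : Slot N) : Fin (numEq N) :=
  Sum.elim (fun _ => ⟨0, h⟩) cubeEq c

/-- The rows in which an equation is odd. -/
def chiOf (N : ℕ) (i : Fin (numEq N)) (r : Fin N) : ZMod 2 :=
  Sum.elim (fun x : Σ l : Fin N, Fin (l : ℕ) =>
      (if r = x.1 then 1 else 0) + if r = small x.1 x.2 then 1 else 0)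
    (fun _ => 0) ((eqEquiv N).symm i)

/-- The sign of the first nonzero entry. -/
def leadNeg {C : Type} : List C → (C → ℤ) → ZMod 2
  | [], _ => 0
  | c :: l, v => if v c = 0 then leadNeg l v else if v c < 0 then 1 else 0

/-- The list of coordinates of row `l` for the coordinate `j`. -/
def prio (l : Fin N) (j : Fin ((l : ℕ) + 1)) : List (Slot N) :=
  Sum.inl ⟨l, j⟩ :: Sum.inl ⟨l, Fin.last _⟩ ::
    (List.finRange ((l : ℕ) + 1)).map fun c => Sum.inl ⟨l, c⟩

/-- The test labels. -/
def testLabel (N : ℕ) (i : Fin (numEq N)) (v : Slot N → ℤ) : ZMod 2 :=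
  Sum.elim (fun x : Σ l : Fin N, Fin (l : ℕ) =>
      leadNeg (prio x.1 x.2.castSucc) v + leadNeg (prio (small x.1 x.2) (Fin.last _)) v)
    (fun m => if v (Sum.inr m) = 0 then 0 else 1) ((eqEquiv N).symm i)

lemma pairEq_lt {l : Fin N} {j j' : Fin (l : ℕ)} (h : j < j') :
    (pairEq l j : ℕ) < pairEq l j' := by
  simp only [pairEq, eqEquiv, Equiv.trans_apply, Equiv.sumCongr_apply, Sum.map_inl,
    finSumFinEquiv_apply_left, Fin.val_castAdd, finSigmaFinEquiv_apply]
  exact Nat.add_lt_add_left h _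

lemma testLabel_pair (l : Fin N) (j : Fin (l : ℕ)) (v : Slot N → ℤ) :
    testLabel N (pairEq l j) v =
      leadNeg (prio l j.castSucc) v + leadNeg (prio (small l j) (Fin.last _)) v := by
  simp [testLabel, pairEq]

lemma testLabel_cube (m : Fin (N - 1)) (v : Slot N → ℤ) :
    testLabel N (cubeEq m) v = if v (Sum.inr m) = 0 then 0 else 1 := by
  simp [testLabel, cubeEq]

lemma leadNeg_congr {C : Type} {l : List C} {v w : C → ℤ} (h : ∀ c ∈ l, v c = w c) :
    leadNeg l v = leadNeg l w := by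
  induction l with
  | nil => rfl
  | cons c l ih =>
    rw [leadNeg, leadNeg, h c List.mem_cons_self, ih fun x hx => h x (List.mem_cons_of_mem _ hx)]

lemma leadNeg_flip {C : Type} {l : List C} {v w : C → ℤ} (h : ∀ c ∈ l, w c = -(v c))
    (hne : ∃ c ∈ l, v c ≠ 0) : leadNeg l w = leadNeg l v + 1 := by
  induction l with
  | nil => simp at hne
  | cons c l ih =>
    rw [leadNeg, leadNeg, h c List.mem_cons_self]
    by_cases hc : v c = 0
    · simp only [hc, neg_zero, if_true]
      obtain ⟨x, hx, hx0⟩ := hne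
      exact ih (fun y hy => h y (List.mem_cons_of_mem _ hy))
        ⟨x, (List.mem_cons.1 hx).resolve_left fun e => hx0 (e ▸ hc), hx0⟩
    · simp only [neg_eq_zero, hc, if_false, neg_lt_zero]
      rcases lt_or_gt_of_ne hc with h' | h'
      · simp [h', h'.le.not_gt]; rfl
      · simp [h', h'.le.not_gt]

lemma mem_prio {l : Fin N} {j : Fin ((l : ℕ) + 1)} {c : Slot N} :
    c ∈ prio l j ↔ ∃ x : Fin ((l : ℕ) + 1), c = Sum.inl ⟨l, x⟩ := by
  simp only [prio, List.mem_cons, List.mem_map, List.mem_finRange, true_and]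
  constructor
  · rintro (h | h | ⟨x, rfl⟩)
    exacts [⟨j, h⟩, ⟨_, h⟩, ⟨x, rfl⟩]
  · rintro ⟨x, rfl⟩
    exact Or.inr (Or.inr ⟨x, rfl⟩)

lemma rowOf_eq_some {c : Slot N} {r : Fin N} :
    rowOf c = some r ↔ ∃ x : Fin ((r : ℕ) + 1), c = Sum.inl ⟨r, x⟩ := by
  rcases c with ⟨l, x⟩ | m
  · simp only [rowOf, Sum.elim_inl, Option.some.injEq]
    constructor
    · rintro rfl
      exact ⟨x, rfl⟩
    · rintro ⟨y, hy⟩
      exact congrArg Sigma.fst (Sum.inl.inj hy)
  · simp [rowOf]

lemma leadNeg_flipRow {M : ℕ} (hM : 0 < M) {v : Slot N → ℤ} (hv : InDom rowOf M v) (r l : Fin N)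
    (j : Fin ((l : ℕ) + 1)) :
    leadNeg (prio l j) (flipRow rowOf r v) = leadNeg (prio l j) v + if r = l then 1 else 0 := by
  by_cases h : r = l
  · subst h
    rw [if_pos rfl]
    refine leadNeg_flip (fun c hc => ?_) ?_
    · simp [flipRow, rowOf_eq_some.2 (mem_prio.1 hc)]
    · obtain ⟨c, hc, hcv⟩ := hv.face r
      exact ⟨c, mem_prio.2 (rowOf_eq_some.1 hc), fun h0 => by simp [h0] at hcv; omega⟩
  · rw [if_neg h, add_zero]
    refine leadNeg_congr fun c hc => ?_
    simp [flipRow, rowOf_eq_some.2 (mem_prio.1 hc), Ne.symm h]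

lemma testLabel_labels {M : ℕ} (hM : 0 < M) (hd : 0 < numEq N) :
    Labels rowOf M (chiOf N) (eqOfSlot hd) (testLabel N) where
  flip i r v hv := by
    obtain ⟨x, rfl⟩ := (eqEquiv N).surjective i
    rcases x with ⟨l, j⟩ | m
    · simp only [testLabel, chiOf, Equiv.symm_apply_apply, Sum.elim_inl, leadNeg_flipRow hM hv]
      ring
    · simp [testLabel, chiOf, flipRow, rowOf]
  low c hc v _ hv0 := by
    rcases c with x | m
    · simp [rowOf] at hc
    · simp [eqOfSlot, testLabel_cube, hv0]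
  high c hc v _ hvM := by
    rcases c with x | m
    · simp [rowOf] at hc
    · simp [eqOfSlot, testLabel_cube, hvM, hM.ne']

/-! ### The only changing chain -/

/-- The steps of the special chain. -/
def step₀ (N : ℕ) (i : Fin (numEq N)) : Slot N :=
  Sum.map (fun x : Σ l : Fin N, Fin (l : ℕ) => (⟨x.1, x.2.castSucc⟩ : Σ l : Fin N, Fin ((l : ℕ) + 1)))
    id ((eqEquiv N).symm i)

/-- The special chain. -/
def chain₀ (N M : ℕ) : Chain (Slot N) (numEq N) M :=
  (Sum.elim (fun x : Σ l : Fin N, Fin ((l : ℕ) + 1) =>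
      if x.2 = Fin.last _ then Fin.last M else 0) fun _ => 0,
    Sum.elim (fun x : Σ l : Fin N, Fin ((l : ℕ) + 1) => decide (x.2 ≠ Fin.last _)) fun _ => false,
    step₀ N)

lemma step₀_pair (l : Fin N) (j : Fin (l : ℕ)) :
    step₀ N (pairEq l j) = Sum.inl ⟨l, j.castSucc⟩ := by simp [step₀, pairEq]

lemma step₀_cube (m : Fin (N - 1)) : step₀ N (cubeEq m) = Sum.inr m := by simp [step₀, cubeEq]

lemma eq_pair_or_cube (i : Fin (numEq N)) :
    (∃ l j, i = pairEq (N := N) l j) ∨ ∃ m, i = cubeEq (N := N) m := by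
  obtain ⟨x, rfl⟩ := (eqEquiv N).surjective i
  rcases x with ⟨l, j⟩ | m
  exacts [Or.inl ⟨l, j, rfl⟩, Or.inr ⟨m, rfl⟩]

lemma ok_chain₀ {M : ℕ} (hM : 0 < M) : Ok rowOf (chain₀ N M) where
  inj := by
    intro a b h
    simp only [chain₀, step₀] at h
    refine (eqEquiv N).symm.injective (Sum.map_injective.2 ⟨?_, Function.injective_id⟩ h)
    rintro ⟨l, j⟩ ⟨l', j'⟩ h'
    simp only [Sigma.mk.injEq] at h'
    obtain ⟨rfl, h'⟩ := h'
    rw [Fin.castSucc_injective _ (eq_of_heq h')]
  room i := by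
    rcases eq_pair_or_cube i with ⟨l, j, rfl⟩ | ⟨m, rfl⟩
    · simp [chain₀, step₀_pair, Fin.castSucc_ne_last, hM]
    · simp [chain₀, step₀_cube, hM]
  cube c hc := by
    rcases c with x | m
    · simp [rowOf] at hc
    · exact ⟨⟨cubeEq m, step₀_cube m⟩, rfl⟩
  pivot r := by
    refine ⟨Sum.inl ⟨r, Fin.last _⟩, rfl, by simp [chain₀], by simp [chain₀], ?_, ?_⟩
    · rintro ⟨i, hi⟩
      rcases eq_pair_or_cube i with ⟨l, j, rfl⟩ | ⟨m, rfl⟩
      · simp only [chain₀, step₀_pair, Sum.inl.injEq, Sigma.mk.injEq] at hi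
        obtain ⟨rfl, hi⟩ := hi
        exact Fin.castSucc_ne_last j (eq_of_heq hi)
      · simp [chain₀, step₀_cube] at hi
    · intro c hc hne
      obtain ⟨x, rfl⟩ := rowOf_eq_some.1 hc
      have hx : x ≠ Fin.last _ := fun e => hne (by rw [e])
      obtain ⟨y, rfl⟩ := Fin.exists_castSucc_eq.2 hx
      exact ⟨pairEq r y, step₀_pair r y⟩

lemma sum_steps {M : ℕ} {s : Chain (Slot N) (numEq N) M} (h : Ok rowOf s) :
    ∑ i, ((rowOf (s.2.2 i)).elim 0 fun r => (r : ℕ)) + ∑ r : Fin N, (r : ℕ) =
      ∑ c : Slot N, ((rowOf c).elim 0 fun r => (r : ℕ)) := by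
  classical
  choose p hp1 hp2 hp3 hp4 hp5 using h.pivot
  have hpinj : Function.Injective p := fun r r' e => Option.some.inj ((hp1 r).symm.trans (e ▸ hp1 r'))
  have huniv : (Finset.univ : Finset (Slot N)) =
      Finset.univ.image s.2.2 ∪ Finset.univ.image p := by
    refine (Finset.eq_univ_of_forall fun c => ?_).symm
    rcases hr : rowOf c with _ | r
    · exact Finset.mem_union_left _ (by simpa using (h.cube c hr).1)
    · by_cases hc : c = p r
      · exact Finset.mem_union_right _ (by simp [hc])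
      · exact Finset.mem_union_left _ (by simpa using hp5 r c hr hc)
  have hdis : Disjoint (Finset.univ.image s.2.2) (Finset.univ.image p) := by
    rw [Finset.disjoint_left]
    intro c hc hc'
    obtain ⟨r, -, rfl⟩ := Finset.mem_image.1 hc'
    obtain ⟨i, -, hi⟩ := Finset.mem_image.1 hc
    exact hp4 r ⟨i, hi⟩
  rw [huniv, Finset.sum_union hdis, Finset.sum_image fun a _ b _ e => h.inj e,
    Finset.sum_image fun a _ b _ e => hpinj e]
  simp [hp1]

lemma vert_succ_of_ne {M : ℕ} (s : Chain (Slot N) (numEq N) M) (i : Fin (numEq N)) {c : Slot N}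
    (hc : c ≠ s.2.2 i) : vert s ((i : ℕ) + 1) c = vert s i c := by
  simp only [vert]
  rw [height_congr (m := (i : ℕ) + 1) (m' := (i : ℕ)) (s := s) (s' := s) rfl]
  constructor
  · rintro ⟨j, hj, rfl⟩
    exact ⟨j, lt_of_le_of_ne (Nat.lt_succ_iff.1 hj) fun e => hc (by rw [Fin.ext e]), rfl⟩
  · rintro ⟨j, hj, rfl⟩
    exact ⟨j, by omega, rfl⟩

lemma vert_self {M : ℕ} {s : Chain (Slot N) (numEq N) M} (h : Ok rowOf s) (i : Fin (numEq N)) :
    vert s i (s.2.2 i) = (if s.2.1 (s.2.2 i) then -((s.1 (s.2.2 i) : ℕ) : ℤ) else (s.1 (s.2.2 i) : ℕ)) ∧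
      vert s ((i : ℕ) + 1) (s.2.2 i) =
        (if s.2.1 (s.2.2 i) then -(((s.1 (s.2.2 i) : ℕ) + 1 : ℕ) : ℤ) else ((s.1 (s.2.2 i) : ℕ) + 1 : ℕ)) := by
  simp only [vert]
  rw [height_kept fun j hj he => by rw [h.inj he] at hj; exact lt_irrefl _ hj,
    height_raised i (Nat.lt_succ_self _) rfl]
  exact ⟨rfl, rfl⟩

lemma leadNeg_step {C : Type} {l : List C} {v w : C → ℤ} {c : C}
    (hoff : ∀ x, x ≠ c → w x = v x) (hne : leadNeg l v ≠ leadNeg l w) :
    c ∈ l ∧ (v c ≠ 0 → w c ≠ 0 → ((v c < 0) ↔ (w c < 0)) → False) := by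
  induction l with
  | nil => simp [leadNeg] at hne
  | cons x l ih =>
    by_cases hx : x = c
    · subst hx
      refine ⟨List.mem_cons_self, fun h1 h2 h3 => hne ?_⟩
      simp only [leadNeg, h1, h2, if_false]
      exact if_congr h3 rfl rfl
    · rw [leadNeg, leadNeg, hoff x hx] at hne
      by_cases h0 : v x = 0
      · simp only [h0, if_true] at hne
        exact ⟨List.mem_cons_of_mem _ (ih hne).1, (ih hne).2⟩
      · simp [h0] at hne

/-- A chain on which all test labels change is the special one. -/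
lemma eq_chain₀ {M : ℕ} (hM : 0 < M) {s : Chain (Slot N) (numEq N) M} (h : Ok rowOf s)
    (hch : ∀ i : Fin (numEq N),
      testLabel N i (vert s i) ≠ testLabel N i (vert s ((i : ℕ) + 1))) : s = chain₀ N M := by
  classical
  -- the cube equations raise their own coordinate from zero
  have hcube : ∀ m, s.2.2 (cubeEq m) = Sum.inr m ∧ (s.1 (Sum.inr m) : ℕ) = 0 := by
    intro m
    have hm := hch (cubeEq m)
    rw [testLabel_cube, testLabel_cube] at hm
    have he : s.2.2 (cubeEq m) = Sum.inr m := by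
      by_contra hne
      rw [vert_succ_of_ne s _ (Ne.symm hne)] at hm
      exact hm rfl
    refine ⟨he, by_contra fun hq => ?_⟩
    have hv := vert_self h (cubeEq m)
    rw [he, (h.cube (Sum.inr m) rfl).2] at hv
    simp only [Bool.false_eq_true, if_false] at hv
    rw [hv.1, hv.2] at hm
    simp [hq] at hm
    omega
  -- the pair equations raise a coordinate in one of their rows
  have hrow : ∀ l j, (∃ x, s.2.2 (pairEq l j) = Sum.inl ⟨l, x⟩) ∨
      ∃ x, s.2.2 (pairEq l j) = Sum.inl ⟨small l j, x⟩ := by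
    intro l j
    by_contra hne
    simp only [not_or, not_exists] at hne
    refine hch (pairEq l j) ?_
    rw [testLabel_pair, testLabel_pair]
    congr 1 <;> refine leadNeg_congr fun c hc => (vert_succ_of_ne s _ ?_).symm <;>
      obtain ⟨x, rfl⟩ := mem_prio.1 hc
    · exact fun e => hne.1 x e.symm
    · exact fun e => hne.2 x e.symm
  -- hence, by counting, in the larger row
  have hlarge : ∀ l j, ∃ x, s.2.2 (pairEq l j) = Sum.inl ⟨l, x⟩ := by
    have hle : ∀ i, ((rowOf (s.2.2 i)).elim 0 fun r => (r : ℕ)) ≤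
        ((rowOf (step₀ N i)).elim 0 fun r => (r : ℕ)) := by
      intro i
      rcases eq_pair_or_cube i with ⟨l, j, rfl⟩ | ⟨m, rfl⟩
      · rcases hrow l j with ⟨x, hx⟩ | ⟨x, hx⟩ <;> rw [hx, step₀_pair] <;>
          simp [rowOf, small, j.isLt.le]
      · rw [(hcube m).1, step₀_cube]
    have hsum := (sum_steps h).trans (sum_steps (ok_chain₀ (N := N) hM)).symm
    have heq := (Finset.sum_eq_sum_iff_of_le fun i _ => hle i).1
      (Nat.add_right_cancel hsum : ∑ i, _ = ∑ i, _)
    intro l j
    refine (hrow l j).resolve_right fun ⟨x, hx⟩ => ?_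
    have := heq (pairEq l j) (Finset.mem_univ _)
    rw [hx, step₀_pair] at this
    simp [rowOf, small] at this
    exact absurd this j.isLt.ne
  -- from zero, changing the label of that row
  have hpair : ∀ l j, (s.1 (s.2.2 (pairEq l j)) : ℕ) = 0 ∧
      leadNeg (prio l j.castSucc) (vert s (pairEq l j)) ≠
        leadNeg (prio l j.castSucc) (vert s ((pairEq l j : ℕ) + 1)) := by
    intro l j
    have hother : leadNeg (prio (small l j) (Fin.last _)) (vert s ((pairEq l j : ℕ) + 1)) =
        leadNeg (prio (small l j) (Fin.last _)) (vert s (pairEq l j)) := by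
      refine leadNeg_congr fun c hc => vert_succ_of_ne s _ ?_
      obtain ⟨x, rfl⟩ := mem_prio.1 hc
      obtain ⟨y, hy⟩ := hlarge l j
      rw [hy]
      intro e
      have hf := congrArg (fun z => ((rowOf z).elim 0 fun r => (r : ℕ))) e
      simp [rowOf, small] at hf
      exact absurd hf j.isLt.ne
    have hne : leadNeg (prio l j.castSucc) (vert s (pairEq l j)) ≠
        leadNeg (prio l j.castSucc) (vert s ((pairEq l j : ℕ) + 1)) := by
      intro e
      refine hch (pairEq l j) ?_
      rw [testLabel_pair, testLabel_pair, hother, e]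
    refine ⟨by_contra fun hq => ?_, hne⟩
    have hv := vert_self h (pairEq l j)
    refine (leadNeg_step (c := s.2.2 (pairEq l j)) (fun x hx => vert_succ_of_ne s _ hx) hne).2 ?_ ?_ ?_
    all_goals (try rw [hv.1]); (try rw [hv.2])
    all_goals generalize (s.1 (s.2.2 (pairEq l j)) : ℕ) = a at hq ⊢
    all_goals cases s.2.1 (s.2.2 (pairEq l j)) <;> simp [hq] <;> omega
  -- the coordinate is `j`
  have hcoord : ∀ (l : Fin N) (a : ℕ) (j : Fin (l : ℕ)), (l : ℕ) ≤ (j : ℕ) + a →
      s.2.2 (pairEq l j) = Sum.inl ⟨l, j.castSucc⟩ := by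
    intro l a
    induction a with
    | zero => intro j hj; exact absurd hj (by have := j.isLt; omega)
    | succ a ih =>
      intro j hj
      by_contra hne
      set c : Slot N := Sum.inl ⟨l, j.castSucc⟩
      obtain ⟨p, hp1, hp2, -, hp4, hp5⟩ := h.pivot l
      have hnonzero : vert s (pairEq l j) c ≠ 0 := by
        have hh : height s (pairEq l j) c ≠ 0 := by
          by_cases hcp : c = p
          · rw [height_kept fun k _ hk => hp4 ⟨k, hk.trans hcp⟩, hcp, hp2]
            omega
          · obtain ⟨k, hk⟩ := hp5 c rfl hcp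
            rcases eq_pair_or_cube k with ⟨l', j', rfl⟩ | ⟨m, rfl⟩
            · obtain ⟨x, hx⟩ := hlarge l' j'
              obtain rfl : l' = l := congrArg Sigma.fst (Sum.inl.inj (hx.symm.trans hk))
              rcases lt_trichotomy j' j with hlt | rfl | hlt
              · rw [height_raised _ (pairEq_lt hlt) hk]
                omega
              · exact absurd hk hne
              · rw [ih j' (by have : (j : ℕ) < j' := hlt; omega)] at hk
                simp only [c, Sum.inl.injEq, Sigma.mk.injEq, heq_eq_eq, true_and] at hk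
                exact absurd (Fin.castSucc_injective _ hk) hlt.ne'
            · rw [(hcube m).1] at hk
              simp [c] at hk
        simp only [vert]
        split <;> simpa using hh
      refine (hpair l j).2 ?_
      simp only [prio, leadNeg]
      rw [vert_succ_of_ne s _ (Ne.symm hne), if_neg hnonzero, if_neg hnonzero]
  have hc : ∀ l j, s.2.2 (pairEq l j) = Sum.inl ⟨l, j.castSucc⟩ := fun l j =>
    hcoord l l j (by omega)
  have hstep : s.2.2 = step₀ N := by
    funext i
    rcases eq_pair_or_cube i with ⟨l, j, rfl⟩ | ⟨m, rfl⟩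
    · rw [hc, step₀_pair]
    · rw [(hcube m).1, step₀_cube]
  -- the pivots
  have hlast : ∀ l : Fin N, (s.1 (Sum.inl ⟨l, Fin.last _⟩) : ℕ) = M ∧
      s.2.1 (Sum.inl ⟨l, Fin.last _⟩) = false := by
    intro l
    obtain ⟨p, hp1, hp2, hp3, hp4, -⟩ := h.pivot l
    obtain ⟨x, rfl⟩ := rowOf_eq_some.1 hp1
    rcases Fin.eq_castSucc_or_eq_last x with ⟨y, rfl⟩ | rfl
    · exact absurd ⟨pairEq l y, hc l y⟩ hp4
    · exact ⟨hp2, hp3⟩
  -- the signs
  have hsign : ∀ l j, s.2.1 (Sum.inl ⟨l, Fin.castSucc j⟩) = true := by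
    intro l j
    by_contra hb
    rw [Bool.not_eq_true] at hb
    have hv := vert_self h (pairEq l j)
    have hq := (hpair l j).1
    rw [hc, hb] at hv
    rw [hc] at hq
    simp only [Bool.false_eq_true, if_false, hq] at hv
    have hnot : (Sum.inl ⟨l, Fin.last _⟩ : Slot N) ∉ Set.range s.2.2 := by
      rintro ⟨k, hk⟩
      rw [hstep] at hk
      rcases eq_pair_or_cube k with ⟨l', j', rfl⟩ | ⟨m, rfl⟩
      · rw [step₀_pair] at hk
        simp only [Sum.inl.injEq, Sigma.mk.injEq] at hk
        obtain ⟨rfl, hk⟩ := hk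
        exact Fin.castSucc_ne_last j' (eq_of_heq hk)
      · simp [step₀_cube] at hk
    have hl : vert s (pairEq l j) (Sum.inl ⟨l, Fin.last _⟩) = M := by
      simp only [vert]
      rw [height_kept fun k _ hk => hnot ⟨k, hk⟩, (hlast l).1]
      simp [(hlast l).2]
    refine (hpair l j).2 ?_
    simp only [prio, leadNeg]
    rw [hv.1, hv.2, hl]
    simp [show ¬ ((M : ℤ) < 0) by omega, hM.ne']
  refine Prod.ext ?_ (Prod.ext ?_ hstep)
  · funext c
    refine Fin.ext ?_
    rcases c with ⟨l, x⟩ | m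
    · rcases Fin.eq_castSucc_or_eq_last x with ⟨y, rfl⟩ | rfl
      · have := (hpair l y).1
        rw [hc] at this
        simp [chain₀, Fin.castSucc_ne_last, this]
      · simp [chain₀, (hlast l).1]
    · simp [chain₀, (hcube m).2]
  · funext c
    rcases c with ⟨l, x⟩ | m
    · rcases Fin.eq_castSucc_or_eq_last x with ⟨y, rfl⟩ | rfl
      · simp [chain₀, Fin.castSucc_ne_last, hsign l y]
      · simp [chain₀, (hlast l).2]
    · simp [chain₀, (h.cube (Sum.inr m) rfl).2]

lemma testLabel_change {M : ℕ} (hM : 0 < M) (i : Fin (numEq N)) :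
    testLabel N i (vert (chain₀ N M) i) ≠ testLabel N i (vert (chain₀ N M) ((i : ℕ) + 1)) := by
  have h := ok_chain₀ (N := N) hM
  have hv := vert_self h i
  rcases eq_pair_or_cube i with ⟨l, j, rfl⟩ | ⟨m, rfl⟩
  · have he : (chain₀ N M).2.2 (pairEq l j) = Sum.inl ⟨l, j.castSucc⟩ := step₀_pair l j
    have hq : ((chain₀ N M).1 (Sum.inl ⟨l, j.castSucc⟩) : ℕ) = 0 := by
      simp [chain₀, Fin.castSucc_ne_last]
    have hτ : (chain₀ N M).2.1 (Sum.inl ⟨l, j.castSucc⟩) = true := by
      simp [chain₀, Fin.castSucc_ne_last]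
    rw [he, hτ, hq] at hv
    simp at hv
    have hlast : ∀ m : ℕ, vert (chain₀ N M) m (Sum.inl ⟨l, Fin.last _⟩) = M := by
      intro m
      simp only [vert]
      rw [height_kept fun k _ hk => ?_]
      · simp [chain₀]
      · obtain ⟨p, hp1, hp2, -, hp4, hp5⟩ := h.pivot l
        by_cases hp : (Sum.inl ⟨l, Fin.last _⟩ : Slot N) = p
        · exact hp4 ⟨k, hk.trans hp⟩
        · rcases eq_pair_or_cube k with ⟨l', j', rfl⟩ | ⟨m', rfl⟩
          · rw [show (chain₀ N M).2.2 = step₀ N from rfl, step₀_pair] at hk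
            simp only [Sum.inl.injEq, Sigma.mk.injEq] at hk
            obtain ⟨rfl, hk⟩ := hk
            exact Fin.castSucc_ne_last j' (eq_of_heq hk)
          · rw [show (chain₀ N M).2.2 = step₀ N from rfl, step₀_cube] at hk
            simp at hk
    rw [testLabel_pair, testLabel_pair]
    rw [leadNeg_congr (l := prio (small l j) (Fin.last _)) (v := vert (chain₀ N M) (pairEq l j))
      (w := vert (chain₀ N M) ((pairEq l j : ℕ) + 1)) fun c hc => (vert_succ_of_ne _ _ ?_).symm]
    · refine fun e => ?_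
      have e' := add_right_cancel e
      simp only [prio, leadNeg] at e'
      rw [hv.1, hv.2, hlast] at e'
      simp [show ¬ ((M : ℤ) < 0) by omega, hM.ne'] at e'
    · obtain ⟨x, rfl⟩ := mem_prio.1 hc
      rw [he]
      intro e
      have hf := congrArg (fun z => ((rowOf z).elim 0 fun r => (r : ℕ))) e
      simp [rowOf, small] at hf
      exact absurd hf j.isLt.ne
  · have he : (chain₀ N M).2.2 (cubeEq m) = Sum.inr m := step₀_cube m
    have hq : ((chain₀ N M).1 (Sum.inr m) : ℕ) = 0 := by simp [chain₀]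
    have hτ : (chain₀ N M).2.1 (Sum.inr m) = false := by simp [chain₀]
    rw [he, hτ, hq] at hv
    simp at hv
    rw [testLabel_cube, testLabel_cube, hv.1, hv.2]
    simp

/-- The parity of the test labels. -/
theorem parity_testLabel {M : ℕ} (hM : 0 < M) : parity rowOf M (testLabel N) = 1 := by
  classical
  rw [parity, Finset.sum_eq_single (chain₀ N M)]
  · rw [cupProd_eq_one_iff]
    intro i hi
    simp only [List.getElem_ofFn]
    exact testLabel_change hM ⟨i, by simpa using hi⟩
  · intro s hs hne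
    by_contra h0
    have h1 : cupProd (List.ofFn (testLabel N)) (vert s) = 1 := by
      generalize cupProd (List.ofFn (testLabel N)) (vert s) = z at h0
      revert z
      decide
    rw [cupProd_eq_one_iff] at h1
    refine hne (eq_chain₀ hM (Finset.mem_filter.1 hs).2 fun i => ?_)
    simpa using h1 i (by simp)
  · intro h
    exact absurd (by simpa using ok_chain₀ (N := N) hM) h

end Vale.Agent.P371.Full.Topo
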