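import Mathlib
import Vale.Agent.P371.Full.Topo.Count

/-!
# The zero of an equivariant field of singular symmetric matrices

A triangular array `C` is written as `t j • u j` with every `u j` of sup norm one and `t` the
stick-breaking image of a point `s` of the cube. The equations are the entries above the
diagonal and `(1 - s m) S m - s m D (m + 1)`, with `D j = R j j - t j trace R` and `S` its running
sums.
-/

namespace Vale.Agent.P371.Full.Topo

open Matrix Filter Topology

variable {N : ℕ}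

/-- The nonzero triangular arrays. -/
def Dom (N : ℕ) : Set (Fin N → Fin N → ℝ) := {C | (∀ j i, j < i → C j i = 0) ∧ C ≠ 0}

/-- Change the sign of some rows. -/
def flip (e : Fin N → Bool) (C : Fin N → Fin N → ℝ) : Fin N → Fin N → ℝ :=
  fun j i => if e j then -(C j i) else C j i

/-- The weight of a row. -/
noncomputable def weight (x : Slot N → ℝ) (j : Fin N) : ℝ :=
  (if h : (j : ℕ) = 0 then 1 else 1 - x (Sum.inr ⟨(j : ℕ) - 1, by omega⟩)) *
    ∏ k ∈ Finset.univ.filter (fun k : Fin (N - 1) => (j : ℕ) ≤ k), x (Sum.inr k)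

/-- The triangular array of a point. -/
noncomputable def arr (x : Slot N → ℝ) (j i : Fin N) : ℝ :=
  if h : (i : ℕ) ≤ j then weight x j * x (Sum.inl ⟨j, ⟨i, Nat.lt_succ_of_le h⟩⟩) else 0

/-- The points. -/
def pts (N : ℕ) : Set (Slot N → ℝ) :=
  {x | (∀ c, |x c| ≤ 1) ∧ (∀ r, ∃ c, rowOf c = some r ∧ |x c| = 1) ∧ ∀ m, 0 ≤ x (Sum.inr m)}

/-- The sum of the first `k` weights. -/
lemma sum_weight_le (x : Slot N → ℝ) (k : ℕ) (hk : k < N) :
    ∑ j ∈ Finset.univ.filter (fun j : Fin N => (j : ℕ) ≤ k), weight x j =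
      ∏ m ∈ Finset.univ.filter (fun m : Fin (N - 1) => k ≤ (m : ℕ)), x (Sum.inr m) := by
  induction k with
  | zero =>
    have e : Finset.univ.filter (fun j : Fin N => (j : ℕ) ≤ 0) = {⟨0, hk⟩} := by
      ext j
      simp [Fin.ext_iff]
    rw [e, Finset.sum_singleton, weight, dif_pos rfl, one_mul]
  | succ k ih =>
    have e1 : Finset.univ.filter (fun j : Fin N => (j : ℕ) ≤ k + 1) =
        insert ⟨k + 1, hk⟩ (Finset.univ.filter fun j : Fin N => (j : ℕ) ≤ k) := by
      ext j
      simp [Fin.ext_iff]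
      omega
    have e2 : Finset.univ.filter (fun m : Fin (N - 1) => k ≤ (m : ℕ)) =
        insert ⟨k, by omega⟩ (Finset.univ.filter fun m : Fin (N - 1) => k + 1 ≤ (m : ℕ)) := by
      ext m
      simp [Fin.ext_iff]
      omega
    rw [e1, Finset.sum_insert (by simp), ih (by omega), e2, Finset.prod_insert (by simp), weight,
      dif_neg (Nat.succ_ne_zero k)]
    simp only [Nat.add_sub_cancel]
    ring

lemma sum_weight (hN : 0 < N) (x : Slot N → ℝ) : ∑ j, weight x j = 1 := by
  have h := sum_weight_le x (N - 1) (by omega)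
  rw [Finset.filter_true_of_mem fun j _ => by omega,
    Finset.filter_false_of_mem fun m _ => by omega, Finset.prod_empty] at h
  exact h

lemma weight_nonneg {x : Slot N → ℝ} (hx : x ∈ pts N) (j : Fin N) : 0 ≤ weight x j := by
  refine mul_nonneg ?_ (Finset.prod_nonneg fun k _ => hx.2.2 k)
  split
  · exact zero_le_one
  · linarith [(abs_le.1 (hx.1 (Sum.inr ⟨(j : ℕ) - 1, by omega⟩))).2]

lemma weight_eq_zero_of_low {x : Slot N → ℝ} {m : Fin (N - 1)} (h : x (Sum.inr m) = 0)
    {j : Fin N} (hj : (j : ℕ) ≤ m) : weight x j = 0 :=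
  mul_eq_zero_of_right _ (Finset.prod_eq_zero (by simpa using hj) h)

lemma weight_eq_zero_of_high {x : Slot N → ℝ} {m : Fin (N - 1)} (h : x (Sum.inr m) = 1)
    {j : Fin N} (hj : (j : ℕ) = (m : ℕ) + 1) : weight x j = 0 := by
  refine mul_eq_zero_of_left ?_ _
  rw [dif_neg (by omega), show (⟨(j : ℕ) - 1, by omega⟩ : Fin (N - 1)) = m from Fin.ext (by simp; omega),
    h, sub_self]

lemma arr_mem {x : Slot N → ℝ} (hN : 0 < N) (hx : x ∈ pts N) : arr x ∈ Dom N := by
  refine ⟨fun j i h => dif_neg (not_le.2 h), fun h0 => ?_⟩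
  obtain ⟨j, -, hj⟩ := Finset.exists_ne_zero_of_sum_ne_zero
    (show ∑ j, weight x j ≠ 0 by rw [sum_weight hN]; exact one_ne_zero)
  obtain ⟨c, hc, hc1⟩ := hx.2.1 j
  obtain ⟨i, rfl⟩ := rowOf_eq_some.1 hc
  have h1 := congrFun (congrFun h0 j) ⟨i, by omega⟩
  rw [arr, dif_pos (Nat.lt_succ_iff.1 i.isLt)] at h1
  rcases mul_eq_zero.1 h1 with h2 | h2
  · exact hj h2
  · simp only [Fin.eta] at h2
    simp [h2] at hc1

lemma arr_zero_row {x : Slot N → ℝ} {j : Fin N} (h : weight x j = 0) : arr x j = 0 := by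
  funext i
  simp [arr, h]

/-- Change the signs of one row of a point. -/
def flipPt (r : Fin N) (x : Slot N → ℝ) : Slot N → ℝ :=
  fun c => if rowOf c = some r then -(x c) else x c

lemma arr_flipPt (r : Fin N) (x : Slot N → ℝ) :
    arr (flipPt r x) = flip (fun j => decide (j = r)) (arr x) := by
  funext j i
  have hw : weight (flipPt r x) j = weight x j := by simp [weight, flipPt, rowOf]
  simp only [arr, flip, hw]
  by_cases h : (i : ℕ) ≤ j
  · simp only [dif_pos h]
    by_cases hj : j = r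
    · subst hj
      simp [flipPt, rowOf]
    · simp [hj, flipPt, rowOf]
  · have h' : ¬ i ≤ j := h
    simp [h']

lemma isCompact_pts (N : ℕ) : IsCompact (pts N) := by
  refine (isCompact_univ_pi fun _ : Slot N => isCompact_Icc (a := (-1 : ℝ)) (b := 1)).of_isClosed_subset
    ?_ fun x hx c _ => Set.mem_Icc.2 (abs_le.1 (hx.1 c))
  have e : pts N = (⋂ c, {x | |x c| ≤ 1}) ∩
      ((⋂ r, ⋃ c : {c // rowOf c = some r}, {x | |x c.1| = 1}) ∩
        ⋂ m, {x | 0 ≤ x (Sum.inr m)}) := by
    ext x
    simp [pts]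
  rw [e]
  refine (isClosed_iInter fun c => isClosed_le (continuous_apply c).abs continuous_const).inter
    ((isClosed_iInter fun r => isClosed_iUnion_of_finite fun c => ?_).inter
      (isClosed_iInter fun m => isClosed_le continuous_const (continuous_apply _)))
  exact isClosed_eq (continuous_apply c.1).abs continuous_const

lemma continuous_weight (j : Fin N) : Continuous fun x : Slot N → ℝ => weight x j := by
  unfold weight
  refine Continuous.mul ?_ (continuous_finsetProd _ fun k _ => continuous_apply _)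
  split <;> fun_prop

lemma continuous_arr : Continuous (arr : (Slot N → ℝ) → Fin N → Fin N → ℝ) := by
  refine continuous_pi fun j => continuous_pi fun i => ?_
  unfold arr
  split
  · exact (continuous_weight j).mul (continuous_apply _)
  · exact continuous_const

/-- The defect of a diagonal entry. -/
noncomputable def defect (R : (Fin N → Fin N → ℝ) → Matrix (Fin N) (Fin N) ℝ) (x : Slot N → ℝ)
    (j : Fin N) : ℝ :=
  R (arr x) j j - weight x j * (R (arr x)).trace

/-- The equations. -/
noncomputable def eqn (R : (Fin N → Fin N → ℝ) → Matrix (Fin N) (Fin N) ℝ) (i : Fin (numEq N))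
    (x : Slot N → ℝ) : ℝ :=
  Sum.elim (fun p : Σ l : Fin N, Fin (l : ℕ) => R (arr x) (small p.1 p.2) p.1)
    (fun m : Fin (N - 1) =>
      (1 - x (Sum.inr m)) *
          ∑ j ∈ Finset.univ.filter (fun j : Fin N => (j : ℕ) ≤ m), defect R x j -
        x (Sum.inr m) * defect R x ⟨(m : ℕ) + 1, by omega⟩) ((eqEquiv N).symm i)

section

variable {R : (Fin N → Fin N → ℝ) → Matrix (Fin N) (Fin N) ℝ}

lemma eqn_pair (l : Fin N) (j : Fin (l : ℕ)) (x : Slot N → ℝ) :
    eqn R (pairEq l j) x = R (arr x) (small l j) l := by simp [eqn, pairEq]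

lemma eqn_cube (m : Fin (N - 1)) (x : Slot N → ℝ) :
    eqn R (cubeEq m) x = (1 - x (Sum.inr m)) *
          ∑ j ∈ Finset.univ.filter (fun j : Fin N => (j : ℕ) ≤ m), defect R x j -
        x (Sum.inr m) * defect R x ⟨(m : ℕ) + 1, by omega⟩ := by simp [eqn, cubeEq]

lemma continuousOn_eqn (hN : 0 < N) (hcont : ContinuousOn R (Dom N)) (i : Fin (numEq N)) :
    ContinuousOn (eqn R i) (pts N) := by
  have hR : ∀ a b, ContinuousOn (fun x => R (arr x) a b) (pts N) := fun a b => by
    have h := (hcont.comp continuous_arr.continuousOn fun x hx => arr_mem hN hx)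
    exact (continuous_apply b).comp_continuousOn ((continuous_apply a).comp_continuousOn h)
  have hD : ∀ j, ContinuousOn (fun x => defect R x j) (pts N) := fun j => by
    refine (hR j j).sub ((continuous_weight j).continuousOn.mul ?_)
    exact continuousOn_finsetSum _ fun k _ => hR k k
  rcases eq_pair_or_cube i with ⟨l, j, rfl⟩ | ⟨m, rfl⟩
  · exact (hR _ _).congr fun x _ => eqn_pair l j x
  · refine ContinuousOn.congr ?_ fun x _ => eqn_cube m x
    exact ((continuous_const.sub (continuous_apply _)).continuousOn.mul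
      (continuousOn_finsetSum _ fun j _ => hD j)).sub
        ((continuous_apply _).continuousOn.mul (hD _))

lemma eqn_flip (hN : 0 < N)
    (hflip : ∀ e, ∀ C ∈ Dom N, ∀ j l,
      R (flip e C) j l = (if e j = e l then R C j l else -(R C j l)))
    (i : Fin (numEq N)) (r : Fin N) {x : Slot N → ℝ} (hx : x ∈ pts N) :
    eqn R i (flipPt r x) = if chiOf N i r = 0 then eqn R i x else -(eqn R i x) := by
  rcases eq_pair_or_cube i with ⟨l, j, rfl⟩ | ⟨m, rfl⟩
  · have hlj : small l j ≠ l := fun e => by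
      have := congrArg (fun z : Fin N => (z : ℕ)) e
      simp [small] at this
      exact absurd this j.isLt.ne
    rw [eqn_pair, eqn_pair, arr_flipPt, hflip _ _ (arr_mem hN hx)]
    simp only [chiOf, pairEq, Equiv.symm_apply_apply, Sum.elim_inl]
    by_cases h1 : r = l <;> by_cases h2 : r = small l j
    · exact absurd (h2.symm.trans h1) hlj
    · simp [h1, hlj, Ne.symm hlj]
    · simp [h2, hlj, Ne.symm hlj]
    · simp [h1, h2, Ne.symm h1, Ne.symm h2]
  · have hdiag : ∀ j, R (arr (flipPt r x)) j j = R (arr x) j j := fun j => by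
      rw [arr_flipPt, hflip _ _ (arr_mem hN hx), if_pos rfl]
    have hD : ∀ j, defect R (flipPt r x) j = defect R x j := fun j => by
      simp [defect, Matrix.trace, hdiag, weight, flipPt, rowOf]
    rw [eqn_cube, eqn_cube]
    simp [hD, flipPt, rowOf, chiOf, cubeEq]

lemma eqn_pos (hN : 0 < N) (hzero : ∀ C ∈ Dom N, ∀ j, C j = 0 → 0 < R C j j)
    {x : Slot N → ℝ} (hx : x ∈ pts N) {m : Fin (N - 1)} (h : x (Sum.inr m) = 0) :
    0 < eqn R (cubeEq m) x := by
  rw [eqn_cube, h, sub_zero, one_mul, zero_mul, sub_zero]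
  refine Finset.sum_pos (fun j hj => ?_) ⟨⟨0, hN⟩, by simp⟩
  have hw := weight_eq_zero_of_low h (Finset.mem_filter.1 hj).2
  rw [defect, hw, zero_mul, sub_zero]
  exact hzero _ (arr_mem hN hx) j (arr_zero_row hw)

lemma eqn_neg (hN : 0 < N) (hzero : ∀ C ∈ Dom N, ∀ j, C j = 0 → 0 < R C j j)
    {x : Slot N → ℝ} (hx : x ∈ pts N) {m : Fin (N - 1)} (h : x (Sum.inr m) = 1) :
    eqn R (cubeEq m) x < 0 := by
  have hw := weight_eq_zero_of_high h (j := ⟨(m : ℕ) + 1, by omega⟩) rfl
  rw [eqn_cube, h, sub_self, zero_mul, one_mul, zero_sub, Left.neg_neg_iff, defect, hw, zero_mul,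
    sub_zero]
  exact hzero _ (arr_mem hN hx) _ (arr_zero_row hw)

lemma eq_zero_of_eqn (hN : 0 < N) (hsymm : ∀ C ∈ Dom N, (R C).IsSymm)
    (hzero : ∀ C ∈ Dom N, ∀ j, C j = 0 → 0 < R C j j) (hdet : ∀ C ∈ Dom N, (R C).det = 0)
    {x : Slot N → ℝ} (hx : x ∈ pts N) (h : ∀ i, eqn R i x = 0) : R (arr x) = 0 := by
  have hC := arr_mem hN hx
  have hs : ∀ m, 0 < x (Sum.inr m) ∧ x (Sum.inr m) < 1 := fun m => by
    refine ⟨(hx.2.2 m).lt_of_ne fun e => ?_, (abs_le.1 (hx.1 _)).2.lt_of_ne fun e => ?_⟩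
    · exact absurd (h (cubeEq m)) (eqn_pos hN hzero hx e.symm).ne'
    · exact absurd (h (cubeEq m)) (eqn_neg hN hzero hx e).ne
  have hw : ∀ j, 0 < weight x j := fun j => by
    refine mul_pos ?_ (Finset.prod_pos fun k _ => (hs k).1)
    split
    · exact one_pos
    · linarith [(hs ⟨(j : ℕ) - 1, by omega⟩).2]
  set D := defect R x
  have hstep : ∀ m : Fin (N - 1),
      x (Sum.inr m) * ∑ j ∈ Finset.univ.filter (fun j : Fin N => (j : ℕ) ≤ (m : ℕ) + 1), D j =
        ∑ j ∈ Finset.univ.filter (fun j : Fin N => (j : ℕ) ≤ m), D j := fun m => by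
    have e : Finset.univ.filter (fun j : Fin N => (j : ℕ) ≤ (m : ℕ) + 1) =
        insert ⟨(m : ℕ) + 1, by omega⟩ (Finset.univ.filter fun j : Fin N => (j : ℕ) ≤ m) := by
      ext j
      simp [Fin.ext_iff]
      omega
    have hm := h (cubeEq m)
    rw [eqn_cube] at hm
    rw [e, Finset.sum_insert (by simp)]
    linarith
  have hback : ∀ a k, k + a = N - 1 →
      ∑ j ∈ Finset.univ.filter (fun j : Fin N => (j : ℕ) ≤ k), D j = 0 := by
    intro a
    induction a with
    | zero =>
      intro k hk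
      rw [Finset.filter_true_of_mem fun j _ => by omega]
      simp only [D, defect, Finset.sum_sub_distrib, ← Finset.sum_mul, sum_weight hN, one_mul]
      exact sub_self _
    | succ a ih =>
      intro k hk
      rw [← hstep ⟨k, by omega⟩, ih (k + 1) (by omega), mul_zero]
  have hall : ∀ j, D j = 0 := fun j => by
    have e : Finset.univ.filter (fun i : Fin N => (i : ℕ) ≤ j) =
        insert j (Finset.univ.filter fun i : Fin N => (i : ℕ) < j) := by
      ext i
      simp [Fin.ext_iff]
      omega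
    have h1 := hback (N - 1 - (j : ℕ)) j (by omega)
    rw [e, Finset.sum_insert (by simp)] at h1
    by_cases hj : (j : ℕ) = 0
    · simpa [hj] using h1
    · have h2 := hback (N - 1 - ((j : ℕ) - 1)) ((j : ℕ) - 1) (by omega)
      rw [show Finset.univ.filter (fun i : Fin N => (i : ℕ) < j) =
        Finset.univ.filter (fun i : Fin N => (i : ℕ) ≤ (j : ℕ) - 1) by ext i; simp; omega, h2] at h1
      simpa using h1
  have hoff : ∀ a b, a ≠ b → R (arr x) a b = 0 := by
    have key : ∀ a b : Fin N, a < b → R (arr x) a b = 0 := fun a b hab => by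
      have := h (pairEq b ⟨(a : ℕ), hab⟩)
      rw [eqn_pair] at this
      exact this
    intro a b hab
    rcases lt_or_gt_of_ne hab with hlt | hlt
    · exact key a b hlt
    · rw [← (hsymm _ hC).apply]
      exact key b a hlt
  have hdiag : R (arr x) = Matrix.diagonal fun j => weight x j * (R (arr x)).trace := by
    ext a b
    by_cases hab : a = b
    · subst hab
      rw [Matrix.diagonal_apply_eq]
      exact sub_eq_zero.1 (hall a)
    · rw [Matrix.diagonal_apply_ne _ hab, hoff a b hab]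
  have hd := hdet _ hC
  rw [hdiag, Matrix.det_diagonal, Finset.prod_eq_zero_iff] at hd
  obtain ⟨j, -, hj⟩ := hd
  rw [hdiag, (mul_eq_zero.1 hj).resolve_left (hw j).ne']
  simp

/-- The point of a grid vertex. -/
noncomputable def gridPt (M : ℕ) (v : Slot N → ℤ) : Slot N → ℝ := fun c => (v c : ℝ) / M

lemma gridPt_mem {M : ℕ} (hM : 0 < M) {v : Slot N → ℤ} (hv : InDom rowOf M v) :
    gridPt M v ∈ pts N := by
  have hM' : (0 : ℝ) < M := Nat.cast_pos.2 hM
  refine ⟨fun c => ?_, fun r => ?_, fun m => div_nonneg (Int.cast_nonneg (hv.nonneg _ rfl)) hM'.le⟩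
  · rw [gridPt, abs_div, abs_of_pos hM', div_le_one hM']
    exact_mod_cast hv.bound c
  · obtain ⟨c, hc, hvc⟩ := hv.face r
    refine ⟨c, hc, ?_⟩
    rw [gridPt, abs_div, abs_of_pos hM', div_eq_one_iff_eq hM'.ne']
    exact_mod_cast hvc

lemma dist_gridPt_le {M : ℕ} (hM : 0 < M) (s : Chain (Slot N) (numEq N) M) (m m' : ℕ) :
    dist (gridPt M (vert s m)) (gridPt M (vert s m')) ≤ 1 / M := by
  refine (dist_pi_le_iff (by positivity)).2 fun c => ?_
  rw [Real.dist_eq, gridPt, gridPt, ← sub_div, abs_div, abs_of_pos (Nat.cast_pos.2 hM : (0 : ℝ) < M)]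
  refine div_le_div_of_nonneg_right ?_ (Nat.cast_nonneg M)
  have h : |vert s m c - vert s m' c| ≤ 1 := by
    simp only [vert, height]
    split <;> split <;> split <;> simp
  exact_mod_cast h

end

/-- The theorem of module M4. -/
theorem exists_zero (N : ℕ) (hN : 0 < N) (R : (Fin N → Fin N → ℝ) → Matrix (Fin N) (Fin N) ℝ)
    (hcont : ContinuousOn R (Dom N)) (hsymm : ∀ C ∈ Dom N, (R C).IsSymm)
    (hflip : ∀ e, ∀ C ∈ Dom N, ∀ j l,
      R (flip e C) j l = (if e j = e l then R C j l else -(R C j l)))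
    (hzero : ∀ C ∈ Dom N, ∀ j, C j = 0 → 0 < R C j j)
    (hdet : ∀ C ∈ Dom N, (R C).det = 0) : ∃ C ∈ Dom N, R C = 0 := by
  classical
  by_contra hcon
  push Not at hcon
  rcases Nat.lt_or_ge N 2 with hN2 | hN2
  · -- one row
    obtain rfl : N = 1 := by omega
    have hC : (fun _ _ => (1 : ℝ)) ∈ Dom 1 :=
      ⟨fun j i h => absurd h (by omega), fun h => one_ne_zero (congrFun (congrFun h 0) 0)⟩
    refine hcon _ hC ?_
    ext a b
    rw [Subsingleton.elim a 0, Subsingleton.elim b 0, Matrix.zero_apply]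
    simpa [Matrix.det_fin_one] using hdet _ hC
  have hd : 0 < numEq N := by unfold numEq; omega
  have hne : ∀ x ∈ pts N, 0 < ∑ i, |eqn R i x| := fun x hx =>
    (Finset.sum_nonneg fun i _ => abs_nonneg _).lt_of_ne fun h =>
      hcon _ (arr_mem hN hx) (eq_zero_of_eqn hN hsymm hzero hdet hx fun i =>
        abs_eq_zero.1 ((Finset.sum_eq_zero_iff_of_nonneg fun i _ => abs_nonneg _).1 h.symm i
          (Finset.mem_univ i)))
  obtain ⟨c, hc, hcb⟩ : ∃ c : ℝ, 0 < c ∧ ∀ x ∈ pts N, c ≤ ∑ i, |eqn R i x| :=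
    (isCompact_pts N).exists_forall_le'
      (continuousOn_finsetSum _ fun i _ => (continuousOn_eqn hN hcont i).abs) hne
  set δ := c / numEq N
  have hδ : 0 < δ := div_pos hc (Nat.cast_pos.2 hd)
  have huc : ∀ i, ∃ η > 0, ∀ x ∈ pts N, ∀ y ∈ pts N, dist x y < η →
      dist (eqn R i x) (eqn R i y) < δ := fun i =>
    Metric.uniformContinuousOn_iff.1
      ((isCompact_pts N).uniformContinuousOn_of_continuous (continuousOn_eqn hN hcont i)) δ hδ
  choose η hη hηd using huc
  have : Nonempty (Fin (numEq N)) := ⟨⟨0, hd⟩⟩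
  obtain ⟨i₀, -, hi₀⟩ := Finset.exists_min_image Finset.univ η Finset.univ_nonempty
  obtain ⟨M₀, hM₀⟩ := exists_nat_one_div_lt (hη i₀)
  set M := M₀ + 1
  have hM : 0 < M := Nat.succ_pos M₀
  have hMη : (1 : ℝ) / M < η i₀ := by simpa [M] using hM₀
  set L : Fin (numEq N) → (Slot N → ℤ) → ZMod 2 := fun i v =>
    if eqn R i (gridPt M v) < 0 then 1 else if 0 < eqn R i (gridPt M v) then 0 else testLabel N i v
  have htest := testLabel_labels (N := N) hM hd
  have hL : Labels rowOf M (chiOf N) (eqOfSlot hd) L := by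
    refine ⟨fun i r v hv => ?_, fun c hc v hv hv0 => ?_, fun c hc v hv hv1 => ?_⟩
    · have e : gridPt M (flipRow rowOf r v) = flipPt r (gridPt M v) := by
        funext c
        simp only [gridPt, flipRow, flipPt]
        split <;> simp [neg_div]
      simp only [L]
      rw [e, eqn_flip hN hflip i r (gridPt_mem hM hv), htest.flip i r v hv]
      have h01 : ∀ z : ZMod 2, z = 0 ∨ z = 1 := by decide
      rcases h01 (chiOf N i r) with hz | hz
      · simp [hz]
      · rw [hz, if_neg one_ne_zero]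
        rcases lt_trichotomy (eqn R i (gridPt M v)) 0 with hlt | heq | hgt
        · simp [hlt, hlt.le.not_gt]
          decide
        · simp [heq]
        · simp [hgt, hgt.le.not_gt]
    · rcases c with p | m
      · simp [rowOf] at hc
      · have h0 : 0 < eqn R (cubeEq m) (gridPt M v) :=
          eqn_pos hN hzero (gridPt_mem hM hv) (by simp [gridPt, hv0])
        simp [L, eqOfSlot, h0, h0.le.not_gt]
    · rcases c with p | m
      · simp [rowOf] at hc
      · have h1 : eqn R (cubeEq m) (gridPt M v) < 0 :=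
          eqn_neg hN hzero (gridPt_mem hM hv) (by simp [gridPt, hv1, hM.ne'])
        simp [L, eqOfSlot, h1]
  refine zero_ne_one ((parity_eq_zero fun s hs => ?_).symm.trans
    ((parity_congr hL htest).trans (parity_testLabel hM)))
  have hx : ∀ m, gridPt M (vert s m) ∈ pts N := fun m => gridPt_mem hM (inDom_vert hs m)
  obtain ⟨i, -, hi⟩ : ∃ i ∈ Finset.univ, δ ≤ |eqn R i (gridPt M (vert s 0))| := by
    by_contra hlt
    push Not at hlt
    have h1 := Finset.sum_lt_sum_of_nonempty Finset.univ_nonempty hlt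
    have h2 := hcb _ (hx 0)
    simp only [δ, Finset.sum_const, Finset.card_univ, Fintype.card_fin, nsmul_eq_mul] at h1
    rw [mul_div_cancel₀ _ (Nat.cast_pos.2 hd).ne'] at h1
    linarith
  refine ⟨i, ?_⟩
  have hclose : ∀ m, |eqn R i (gridPt M (vert s 0)) - eqn R i (gridPt M (vert s m))| < δ := fun m =>
    hηd i _ (hx 0) _ (hx m)
      ((dist_gridPt_le hM s 0 m).trans_lt (hMη.trans_le (hi₀ i (Finset.mem_univ i))))
  rcases le_abs.1 hi with hpos | hneg
  · have hp : ∀ m, 0 < eqn R i (gridPt M (vert s m)) := fun m => by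
      linarith [(abs_lt.1 (hclose m)).2]
    simp [L, hp, (hp _).le.not_gt]
  · have hp : ∀ m, eqn R i (gridPt M (vert s m)) < 0 := fun m => by
      linarith [(abs_lt.1 (hclose m)).1]
    simp [L, hp]

end Vale.Agent.P371.Full.Topo
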